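import Mathlib

/-!
Sums of unit fractions: basic lemmas (removing repetitions, greedy steps).
-/

namespace Crest.Agent.R019

/-- `q` is a sum of at most `k` unit fractions with positive, not necessarily distinct,
denominators. -/
def SumUF (k : ℕ) (q : ℚ) : Prop :=
  ∃ M : Multiset ℕ, (∀ n ∈ M, 0 < n) ∧ Multiset.card M ≤ k ∧
    (M.map (fun n : ℕ => (1 : ℚ) / (n : ℚ))).sum = q

theorem SumUF.mono {k k' : ℕ} {q : ℚ} (h : SumUF k q) (hk : k ≤ k') : SumUF k' q := by
  obtain ⟨M, h1, h2, h3⟩ := h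
  exact ⟨M, h1, h2.trans hk, h3⟩

theorem sumUF_zero (k : ℕ) : SumUF k 0 := ⟨0, by simp, by simp, by simp⟩

theorem SumUF.cons {k : ℕ} {q : ℚ} (h : SumUF k q) {n : ℕ} (hn : 0 < n) :
    SumUF (k + 1) (1 / (n : ℚ) + q) := by
  obtain ⟨M, h1, h2, h3⟩ := h
  refine ⟨n ::ₘ M, ?_, ?_, ?_⟩
  · intro x hx
    rcases Multiset.mem_cons.1 hx with rfl | hx
    · exact hn
    · exact h1 x hx
  · simpa using h2
  · simp only [Multiset.map_cons, Multiset.sum_cons, h3]

theorem recip_sum_nonneg (M : Multiset ℕ) :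
    0 ≤ (M.map (fun n : ℕ => (1 : ℚ) / (n : ℚ))).sum := by
  apply Multiset.sum_nonneg
  intro x hx
  obtain ⟨n, _, rfl⟩ := Multiset.mem_map.1 hx
  positivity

theorem recip_sum_le (M : Multiset ℕ) (N : ℕ) (hN : 0 < N) (h : ∀ n ∈ M, N ≤ n) :
    (M.map (fun n : ℕ => (1 : ℚ) / (n : ℚ))).sum ≤ Multiset.card M / (N : ℚ) := by
  induction M using Multiset.induction_on with
  | empty => simp
  | cons a s ih =>
    have h1 : (1 : ℚ) / (a : ℚ) ≤ 1 / (N : ℚ) := by
      apply one_div_le_one_div_of_le (by exact_mod_cast hN)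
      exact_mod_cast h a (Multiset.mem_cons_self a s)
    have h2 := ih (fun n hn => h n (Multiset.mem_cons_of_mem hn))
    simp only [Multiset.map_cons, Multiset.sum_cons, Multiset.card_cons]
    push_cast
    rw [add_div]
    linarith

theorem bounded_sum (k : ℕ) : ∀ q : ℚ, ∃ B : ℕ, ∀ M : Multiset ℕ, (∀ n ∈ M, 0 < n) →
    Multiset.card M ≤ k → (M.map (fun n : ℕ => (1 : ℚ) / (n : ℚ))).sum = q → M.sum ≤ B := by
  induction k with
  | zero =>
    intro q
    refine ⟨0, fun M _ h _ => ?_⟩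
    have : M = 0 := by simpa using h
    simp [this]
  | succ k ih =>
    intro q
    choose f hf using ih
    by_cases hq : q ≤ 0
    · refine ⟨0, fun M h1 _ h3 => ?_⟩
      by_cases hM : M = 0
      · simp [hM]
      · obtain ⟨a, ha⟩ := Multiset.exists_mem_of_ne_zero hM
        obtain ⟨s, rfl⟩ := Multiset.exists_cons_of_mem ha
        have h4 : (0 : ℚ) < 1 / (a : ℚ) := by
          have := h1 a ha
          positivity
        have h5 := recip_sum_nonneg s
        simp only [Multiset.map_cons, Multiset.sum_cons] at h3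
        linarith
    · push Not at hq
      obtain ⟨N, hN⟩ := exists_nat_gt (((k + 1 : ℕ) : ℚ) / q)
      have hN0 : 0 < N := by
        have : (0 : ℚ) < N := lt_trans (by positivity) hN
        exact_mod_cast this
      refine ⟨N + (Finset.range N).sup (fun n => f (q - 1 / (n : ℚ))), fun M h1 h2 h3 => ?_⟩
      by_cases hex : ∃ n ∈ M, n < N
      · obtain ⟨a, ha, haN⟩ := hex
        obtain ⟨s, rfl⟩ := Multiset.exists_cons_of_mem ha
        simp only [Multiset.map_cons, Multiset.sum_cons] at h3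
        have h5 := hf (q - 1 / (a : ℚ)) s (fun n hn => h1 n (Multiset.mem_cons_of_mem hn))
          (by simpa using h2) (by linarith)
        have h6 : f (q - 1 / (a : ℚ)) ≤ (Finset.range N).sup (fun n => f (q - 1 / (n : ℚ))) :=
          Finset.le_sup (f := fun n : ℕ => f (q - 1 / (n : ℚ))) (Finset.mem_range.2 haN)
        simp only [Multiset.sum_cons]
        omega
      · push Not at hex
        have h5 := recip_sum_le M N hN0 hex
        have h6 : ((Multiset.card M : ℕ) : ℚ) ≤ ((k + 1 : ℕ) : ℚ) := by exact_mod_cast h2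
        have hNq : (0 : ℚ) < N := by exact_mod_cast hN0
        rw [div_lt_iff₀ hq] at hN
        rw [h3, le_div_iff₀ hNq] at h5
        nlinarith

/-- Takenouchi's trick: repetitions can be removed without increasing the number of terms. -/
theorem SumUF.distinct {k : ℕ} {q : ℚ} (h : SumUF k q) (hq : q < 1) :
    ∃ S : Finset ℕ, (∀ n ∈ S, 2 ≤ n) ∧ S.card ≤ k ∧ ∑ n ∈ S, (1 : ℚ) / (n : ℚ) = q := by
  classical
  obtain ⟨B, hB⟩ := bounded_sum k q
  have key : ∀ d : ℕ, ∀ M : Multiset ℕ, (∀ n ∈ M, 0 < n) → Multiset.card M ≤ k →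
      (M.map (fun n : ℕ => (1 : ℚ) / (n : ℚ))).sum = q → B - M.sum ≤ d →
      ∃ M' : Multiset ℕ, (∀ n ∈ M', 0 < n) ∧ Multiset.card M' ≤ k ∧
        (M'.map (fun n : ℕ => (1 : ℚ) / (n : ℚ))).sum = q ∧ M'.Nodup := by
    intro d
    induction d using Nat.strong_induction_on with
    | _ d ih =>
      intro M h1 h2 h3 h4
      by_cases hnd : M.Nodup
      · exact ⟨M, h1, h2, h3, hnd⟩
      · rw [Multiset.nodup_iff_ne_cons_cons] at hnd
        push Not at hnd
        obtain ⟨a, s, rfl⟩ := hnd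
        have ha : 0 < a := h1 a (Multiset.mem_cons_self _ _)
        have hs := recip_sum_nonneg s
        simp only [Multiset.map_cons, Multiset.sum_cons] at h3
        have ha3 : 3 ≤ a := by
          by_contra hlt
          have : a = 1 ∨ a = 2 := by omega
          rcases this with rfl | rfl
          · simp only [Nat.cast_one] at h3; linarith
          · simp only [Nat.cast_ofNat] at h3; linarith
        -- find x, y with 1/x + 1/y = 2/a and x + y > 2a
        obtain ⟨x, y, hx, hy, hxy, hsum⟩ : ∃ x y : ℕ, 0 < x ∧ 0 < y ∧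
            (1 : ℚ) / x + 1 / y = 1 / a + 1 / a ∧ a + a < x + y := by
          rcases Nat.even_or_odd' a with ⟨m, rfl | rfl⟩
          · have hm : 2 ≤ m := by omega
            refine ⟨m + 1, m * (m + 1), by omega, by positivity, ?_, by nlinarith⟩
            have : (0 : ℚ) < m := by exact_mod_cast (by omega : 0 < m)
            push_cast
            field_simp
            ring
          · have hm : 1 ≤ m := by omega
            refine ⟨m + 1, (m + 1) * (2 * m + 1), by omega, by positivity, ?_, by nlinarith⟩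
            have : (0 : ℚ) < m := by exact_mod_cast (by omega : 0 < m)
            push_cast
            field_simp
            ring
        have g1 : ∀ n ∈ x ::ₘ y ::ₘ s, 0 < n := by
          intro n hn
          simp only [Multiset.mem_cons] at hn
          rcases hn with rfl | rfl | hn
          · exact hx
          · exact hy
          · exact h1 n (by simp [hn])
        have g2 : Multiset.card (x ::ₘ y ::ₘ s) ≤ k := by simpa using h2
        have g3 : ((x ::ₘ y ::ₘ s).map (fun n : ℕ => (1 : ℚ) / (n : ℚ))).sum = q := by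
          simp only [Multiset.map_cons, Multiset.sum_cons]
          linarith
        have g4 := hB _ g1 g2 g3
        simp only [Multiset.sum_cons] at g4 h4
        refine ih (B - (x ::ₘ y ::ₘ s).sum) ?_ _ g1 g2 g3 le_rfl
        simp only [Multiset.sum_cons]
        omega
  obtain ⟨M, h1, h2, h3⟩ := h
  obtain ⟨M', g1, g2, g3, g4⟩ := key _ M h1 h2 h3 le_rfl
  refine ⟨⟨M', g4⟩, ?_, g2, g3⟩
  intro n hn
  have hn' : n ∈ M' := hn
  have hpos := g1 n hn'
  by_contra hlt
  have hn1 : n = 1 := by omega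
  subst hn1
  obtain ⟨s, hs⟩ := Multiset.exists_cons_of_mem hn'
  have := recip_sum_nonneg s
  rw [hs] at g3
  simp only [Multiset.map_cons, Multiset.sum_cons] at g3
  norm_num at g3
  simp only [one_div] at this
  linarith

/-- One greedy step. -/
theorem greedy_step (a b : ℕ) (ha : 0 < a) (hb : 0 < b) :
    ∃ n a' : ℕ, 0 < n ∧ n ≤ b ∧ a' < a ∧ b ≤ a * n ∧
      (a : ℚ) / b = 1 / (n : ℚ) + (a' : ℚ) / ((b * n : ℕ) : ℚ) := by
  -- n = ceil (b / a)
  set n := (b + a - 1) / a with hn
  have h1 : a * n + (b + a - 1) % a = b + a - 1 := Nat.div_add_mod _ _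
  have h2 : (b + a - 1) % a < a := Nat.mod_lt _ ha
  have h3 : b ≤ a * n := by omega
  have h4 : a * n < b + a := by omega
  have hn0 : 0 < n := by
    rcases Nat.eq_zero_or_pos n with h | h
    · rw [h] at h3; omega
    · exact h
  have hnb : n ≤ b := by
    by_contra hlt
    push Not at hlt
    have : a * (b + 1) ≤ a * n := Nat.mul_le_mul_left _ hlt
    nlinarith
  refine ⟨n, a * n - b, hn0, hnb, by omega, h3, ?_⟩
  have hbq : (0 : ℚ) < b := by exact_mod_cast hb
  have hnq : (0 : ℚ) < n := by exact_mod_cast hn0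
  rw [Nat.cast_sub h3]
  push_cast
  field_simp
  ring

/-- Iterated greedy steps until the denominator is large. -/
theorem greedy_iter (B₀ : ℕ) (hB : 0 < B₀) : ∀ (k : ℕ) (m a b : ℕ), 0 < b → m * a ≤ b →
    B₀ ≤ m ^ (2 ^ k) → b ≤ B₀ ^ 2 →
    ∃ a' b' : ℕ, a' ≤ a ∧ B₀ ≤ b' ∧ b' ≤ B₀ ^ 2 ∧
      ∀ j, SumUF j ((a' : ℚ) / b') → SumUF (j + k) ((a : ℚ) / b) := by
  intro k
  induction k with
  | zero =>
    intro m a b hb hm hk hb2
    rcases Nat.eq_zero_or_pos a with rfl | ha
    · exact ⟨0, B₀, le_rfl, le_rfl, by nlinarith, fun j _ => by simpa using sumUF_zero _⟩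
    · refine ⟨a, b, le_rfl, ?_, hb2, fun j h => h⟩
      simp only [pow_zero, pow_one] at hk
      nlinarith
  | succ k ih =>
    intro m a b hb hm hk hb2
    rcases Nat.eq_zero_or_pos a with rfl | ha
    · exact ⟨0, B₀, le_rfl, le_rfl, by nlinarith, fun j _ => by simpa using sumUF_zero _⟩
    by_cases hbig : B₀ ≤ b
    · exact ⟨a, b, le_rfl, hbig, hb2, fun j h => h.mono (by omega)⟩
    push Not at hbig
    obtain ⟨n, a₁, hn0, hnb, ha₁, hbn, heq⟩ := greedy_step a b ha hb
    have hmn : m ≤ n := by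
      by_contra hlt
      push Not at hlt
      nlinarith
    obtain ⟨a', b', g1, g2, g3, g4⟩ := ih (m ^ 2) a₁ (b * n) (by positivity)
      (by
        calc m ^ 2 * a₁ ≤ m ^ 2 * a := Nat.mul_le_mul_left _ ha₁.le
          _ = (m * a) * m := by ring
          _ ≤ b * n := Nat.mul_le_mul hm hmn)
      (by rw [← pow_mul, ← pow_succ']; exact hk)
      (by nlinarith)
    refine ⟨a', b', by omega, g2, g3, fun j h => ?_⟩
    rw [heq]
    exact (g4 j h).cons hn0

theorem greedy (B₀ k a b : ℕ) (ha : 0 < a) (hab : a < b) (hb : b ≤ B₀) (hk : B₀ ≤ 2 ^ (2 ^ k)) :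
    ∃ a' b' : ℕ, a' ≤ a ∧ B₀ ≤ b' ∧ b' ≤ B₀ ^ 2 ∧
      ∀ j, SumUF j ((a' : ℚ) / b') → SumUF (j + k + 1) ((a : ℚ) / b) := by
  obtain ⟨n, a₁, hn0, hnb, ha₁, hbn, heq⟩ := greedy_step a b ha (by omega)
  have hn2 : 2 ≤ n := by
    by_contra hlt
    have : n = 1 := by omega
    subst this
    omega
  obtain ⟨a', b', g1, g2, g3, g4⟩ := greedy_iter B₀ (by omega) k 2 a₁ (b * n)
    (Nat.mul_pos (by omega) hn0) (by nlinarith) hk (by nlinarith)
  refine ⟨a', b', by omega, g2, g3, fun j h => ?_⟩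
  rw [heq]
  exact (g4 j h).cons hn0

/-- `x` is a sum of at most `k` divisors of `n`. -/
def SumDiv (n k x : ℕ) : Prop :=
  ∃ M : Multiset ℕ, Multiset.card M ≤ k ∧ (∀ d ∈ M, d ∣ n) ∧ M.sum = x

theorem SumDiv.add {n k k' x x' : ℕ} (h : SumDiv n k x) (h' : SumDiv n k' x') :
    SumDiv n (k + k') (x + x') := by
  obtain ⟨M, h1, h2, h3⟩ := h
  obtain ⟨M', g1, g2, g3⟩ := h'
  refine ⟨M + M', by simp; omega, ?_, by simp [h3, g3]⟩
  intro d hd
  rcases Multiset.mem_add.1 hd with hd | hd
  · exact h2 d hd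
  · exact g2 d hd

theorem SumDiv.mul {n k x : ℕ} (h : SumDiv n k x) (w : ℕ) : SumDiv (w * n) k (w * x) := by
  obtain ⟨M, h1, h2, h3⟩ := h
  refine ⟨M.map (fun d => w * d), by simpa using h1, ?_, ?_⟩
  · intro d hd
    obtain ⟨e, he, rfl⟩ := Multiset.mem_map.1 hd
    exact Nat.mul_dvd_mul_left _ (h2 e he)
  · rw [Multiset.sum_map_mul_left, Multiset.map_id', h3]

theorem SumDiv.of_dvd {n n' k x : ℕ} (h : SumDiv n k x) (hn : n ∣ n') : SumDiv n' k x := by
  obtain ⟨M, h1, h2, h3⟩ := h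
  exact ⟨M, h1, fun d hd => (h2 d hd).trans hn, h3⟩

theorem SumDiv.mono {n k k' x : ℕ} (h : SumDiv n k x) (hk : k ≤ k') : SumDiv n k' x := by
  obtain ⟨M, h1, h2, h3⟩ := h
  exact ⟨M, h1.trans hk, h2, h3⟩

theorem sumDiv_zero (n k : ℕ) : SumDiv n k 0 := ⟨0, by simp, by simp, by simp⟩

theorem sumDiv_one {n d : ℕ} (h : d ∣ n) : SumDiv n 1 d :=
  ⟨{d}, by simp, by simpa using h, by simp⟩

/-- If a positive multiple of `p` is a sum of `k` divisors of `N`, then `p / N` is a sum of `k`
unit fractions. -/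
theorem SumDiv.sumUF {N k x p : ℕ} (h : SumDiv N k x) (hN : 0 < N) (hx : 0 < x) (hp : p ∣ x) :
    SumUF k ((p : ℚ) / N) := by
  obtain ⟨M, h1, h2, h3⟩ := h
  obtain ⟨m, rfl⟩ := hp
  have hm : 0 < m := Nat.pos_of_mul_pos_left hx
  refine ⟨M.map (fun d => N / d * m), ?_, by simpa using h1, ?_⟩
  · intro n hn
    obtain ⟨d, hd, rfl⟩ := Multiset.mem_map.1 hn
    have hd0 : 0 < d := Nat.pos_of_dvd_of_pos (h2 d hd) hN
    exact Nat.mul_pos (Nat.div_pos (Nat.le_of_dvd hN (h2 d hd)) hd0) hm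
  · rw [Multiset.map_map]
    have hNq : (0 : ℚ) < N := by exact_mod_cast hN
    have hmq : (0 : ℚ) < m := by exact_mod_cast hm
    have : M.map ((fun n : ℕ => (1 : ℚ) / (n : ℚ)) ∘ fun d => N / d * m) =
        M.map (fun d : ℕ => (d : ℚ) * (1 / ((N : ℚ) * m))) := by
      apply Multiset.map_congr rfl
      intro d hd
      obtain ⟨c, hc⟩ := h2 d hd
      have hd0 : 0 < d := Nat.pos_of_dvd_of_pos (h2 d hd) hN
      have hc0 : 0 < c := by
        rcases Nat.eq_zero_or_pos c with h | h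
        · rw [h] at hc; omega
        · exact h
      have hdq : (0 : ℚ) < d := by exact_mod_cast hd0
      have hcq : (0 : ℚ) < c := by exact_mod_cast hc0
      simp only [Function.comp]
      rw [hc, Nat.mul_div_cancel_left _ hd0]
      push_cast
      field_simp
    rw [this, Multiset.sum_map_mul_right]
    have h4 : (M.map (fun d : ℕ => (d : ℚ))).sum = ((p * m : ℕ) : ℚ) := by
      rw [← h3]; simp
    rw [h4]
    push_cast
    field_simp

end Crest.Agent.R019
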