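import Mathlib
import Crest.Agent.R019.Basic

/-!
Construction of a large set of short sums of divisors.
-/

namespace Crest.Agent.R019

open Finset

theorem pi_lower {n t : ℕ} (h : n + 1 ≤ 2 ^ t) : n ≤ t * ((Nat.primesLE n).card + 1) := by
  rw [Nat.primesLE_card_eq_primeCounting]
  have h1 := Chebyshev.psi_ge n
  have h2 := Chebyshev.psi_le_primeCounting_mul_log n
  have hl2 : 0 < Real.log 2 := Real.log_pos (by norm_num)
  have h3 : Real.log (n + 1) ≤ t * Real.log 2 := by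
    rw [← Real.log_pow]
    apply Real.log_le_log (by positivity)
    exact_mod_cast h
  have h4 : Real.log n ≤ Real.log (n + 1) := by
    rcases Nat.eq_zero_or_pos n with rfl | hn
    · simp
    · exact Real.log_le_log (by exact_mod_cast hn) (by linarith)
  have h5 : (0 : ℝ) ≤ (Nat.primeCounting n : ℝ) := by positivity
  have h6 : (n : ℝ) * Real.log 2 ≤ (t * ((Nat.primeCounting n : ℝ) + 1)) * Real.log 2 := by
    have : (Nat.primeCounting n : ℝ) * Real.log n ≤ Nat.primeCounting n * (t * Real.log 2) := by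
      gcongr
      linarith
    nlinarith
  have h7 := le_of_mul_le_mul_right h6 hl2
  exact_mod_cast h7

theorem pow_card_le {N z : ℕ} (hN : 0 < N) {s : Finset ℕ} (hs : s ⊆ N.primeFactors)
    (hz : ∀ q ∈ s, z ≤ q) : z ^ s.card ≤ N := by
  calc z ^ s.card ≤ ∏ q ∈ s, q := Finset.pow_card_le_prod s (fun q => q) z hz
    _ ≤ N := Nat.le_of_dvd hN
        ((Finset.prod_dvd_prod_of_subset _ _ _ hs).trans (Nat.prod_primeFactors_dvd N))

theorem card_primeFactors_le {N n : ℕ} (hN : 0 < N) (h : N ≤ 2 ^ n) : N.primeFactors.card ≤ n := by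
  have := pow_card_le (z := 2) hN (Subset.refl _)
    (fun q hq => (Nat.prime_of_mem_primeFactors hq).two_le)
  exact (Nat.pow_le_pow_iff_right (by norm_num)).1 (this.trans h)

theorem card_primes_not_dvd {b nb Z : ℕ} (hb : 0 < b) (hnb : b ≤ 2 ^ nb) :
    (Nat.primesLE Z).card ≤ ((Nat.primesLE Z).filter (fun q => ¬ q ∣ b)).card + nb := by
  have h1 : Nat.primesLE Z ⊆ (Nat.primesLE Z).filter (fun q => ¬ q ∣ b) ∪ b.primeFactors := by
    intro q hq
    rw [mem_union, mem_filter, Nat.mem_primeFactors]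
    by_cases h : q ∣ b
    · exact Or.inr ⟨Nat.prime_of_mem_primesLE hq, h, hb.ne'⟩
    · exact Or.inl ⟨hq, h⟩
  have h2 := (card_le_card h1).trans (card_union_le _ _)
  have h3 := card_primeFactors_le hb hnb
  omega

/-- All products of subsets of `s`. -/
def divs (s : Finset ℕ) : Finset ℕ := s.powerset.image (fun t => ∏ q ∈ t, q)

theorem card_divs {s : Finset ℕ} (hs : ∀ q ∈ s, q.Prime) : (divs s).card = 2 ^ s.card := by
  unfold divs
  rw [card_image_of_injOn, card_powerset]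
  intro t ht t' ht' h
  simp only [coe_powerset, Set.mem_preimage, Set.mem_powerset_iff, coe_subset] at ht ht'
  have h1 := Nat.primeFactors_prod (fun q hq => hs q (ht hq))
  have h2 := Nat.primeFactors_prod (fun q hq => hs q (ht' hq))
  simp only at h
  rw [← h1, ← h2, h]

theorem dvd_of_mem_divs {s s' : Finset ℕ} (hs : s ⊆ s') {x : ℕ} (hx : x ∈ divs s) :
    x ∣ ∏ q ∈ s', q := by
  obtain ⟨t, ht, rfl⟩ := mem_image.1 hx
  exact Finset.prod_dvd_prod_of_subset _ _ _ ((mem_powerset.1 ht).trans hs)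

theorem le_of_mem_divs {s : Finset ℕ} {Z : ℕ} (hZ0 : 0 < Z) (hZ : ∀ q ∈ s, q ≤ Z) {x : ℕ}
    (hx : x ∈ divs s) : x ≤ Z ^ s.card := by
  obtain ⟨t, ht, rfl⟩ := mem_image.1 hx
  have ht' := mem_powerset.1 ht
  calc ∏ q ∈ t, q ≤ Z ^ t.card := Finset.prod_le_pow_card t (fun q => q) Z (fun q hq => hZ q (ht' hq))
    _ ≤ _ := Nat.pow_le_pow_right hZ0 (card_le_card ht')

theorem exists_modulus {D 𝒬 : Finset ℕ} {nR : ℕ} (hD : ∀ x ∈ D, x ≤ 2 ^ nR)
    (h𝒬 : ∀ q ∈ 𝒬, q.Prime) (hc : 2 * D.card * nR < 𝒬.card) :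
    ∃ Q ∈ 𝒬, ∃ D' ⊆ D, D.card ≤ 2 * D'.card ∧ ∀ e ∈ D', ∀ e' ∈ D', e ≡ e' [MOD Q] → e = e' := by
  let C : ℕ → Finset (ℕ × ℕ) := fun Q => D.offDiag.filter (fun z => z.1 ≡ z.2 [MOD Q])
  have hsum : ∑ Q ∈ 𝒬, (C Q).card ≤ D.card * D.card * nR := by
    have e1 : ∑ Q ∈ 𝒬, (C Q).card =
        ∑ z ∈ D.offDiag, (𝒬.filter (fun Q => z.1 ≡ z.2 [MOD Q])).card := by
      simp only [C, card_filter]
      rw [sum_comm]
    rw [e1]
    calc _ ≤ ∑ _z ∈ D.offDiag, nR := by
          apply sum_le_sum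
          rintro ⟨x, y⟩ hz
          rw [mem_offDiag] at hz
          obtain ⟨hx, hy, hxy⟩ := hz
          simp only at hx hy hxy ⊢
          have h1 := hD x hx
          have h2 := hD y hy
          have hN : 0 < ((y : ℤ) - x).natAbs := by omega
          refine le_trans (card_le_card ?_) (card_primeFactors_le hN (by omega))
          intro q hq
          rw [mem_filter] at hq
          exact Nat.mem_primeFactors.2 ⟨h𝒬 q hq.1, Int.natCast_dvd.1 hq.2.dvd, hN.ne'⟩
      _ = D.offDiag.card * nR := by simp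
      _ ≤ _ := by
          rw [offDiag_card]
          exact Nat.mul_le_mul_right _ (Nat.sub_le _ _)
  have hex : ∃ Q ∈ 𝒬, 2 * (C Q).card ≤ D.card := by
    by_contra hcon
    push Not at hcon
    have h1 : ∑ _Q ∈ 𝒬, (D.card + 1) ≤ ∑ Q ∈ 𝒬, 2 * (C Q).card :=
      sum_le_sum (fun Q hQ => hcon Q hQ)
    rw [← mul_sum, sum_const, smul_eq_mul] at h1
    nlinarith
  obtain ⟨Q, hQ, hCQ⟩ := hex
  refine ⟨Q, hQ, D \ (C Q).image Prod.fst, sdiff_subset, ?_, ?_⟩
  · have h1 := le_card_sdiff ((C Q).image Prod.fst) D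
    have h2 : ((C Q).image Prod.fst).card ≤ (C Q).card := card_image_le
    omega
  · intro e he e' he' h
    by_contra hne
    rw [mem_sdiff] at he he'
    apply he.2
    exact mem_image.2 ⟨(e, e'), mem_filter.2 ⟨mem_offDiag.2 ⟨he.1, he'.1, hne⟩, h⟩, rfl⟩

/-- Numbers with `i` digits from `D` in base `Q`. -/
def digs (Q : ℕ) (D : Finset ℕ) : ℕ → Finset ℕ
  | 0 => {0}
  | i + 1 => image₂ (fun e s => e + Q * s) D (digs Q D i)

theorem card_digs {Q : ℕ} {D : Finset ℕ} (hQ : 0 < Q)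
    (hD : ∀ e ∈ D, ∀ e' ∈ D, e ≡ e' [MOD Q] → e = e') (i : ℕ) :
    (digs Q D i).card = D.card ^ i := by
  induction i with
  | zero => simp [digs]
  | succ i ih =>
    rw [digs, card_image₂_iff.2, ih, pow_succ']
    rintro ⟨e, s⟩ ⟨he, _⟩ ⟨e', s'⟩ ⟨he', _⟩ h
    simp only at h he he'
    have h1 : e ≡ e' [MOD Q] := by
      have : (e + Q * s) % Q = (e' + Q * s') % Q := by rw [h]
      simpa [Nat.ModEq] using this
    have h2 := hD e he e' he' h1
    subst h2
    have h3 : Q * s = Q * s' := by omega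
    rw [Nat.eq_of_mul_eq_mul_left hQ h3]

theorem digs_spec {Q R : ℕ} {D : Finset ℕ} (hQ : 2 ≤ Q) (hR : 0 < R) (hD : ∀ e ∈ D, e ∣ R)
    (i : ℕ) : ∀ x ∈ digs Q D i, SumDiv (Q ^ i * R) i x ∧ x + R ≤ Q ^ i * R ∧ (0 < i → 0 < x) := by
  induction i with
  | zero =>
    intro x hx
    simp only [digs, mem_singleton] at hx
    subst hx
    exact ⟨sumDiv_zero _ _, by simp, fun h => h⟩
  | succ i ih =>
    intro x hx
    rw [digs, mem_image₂] at hx
    obtain ⟨e, he, s, hs, rfl⟩ := hx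
    obtain ⟨h1, h2, _⟩ := ih s hs
    have he0 : 0 < e := Nat.pos_of_dvd_of_pos (hD e he) hR
    have heR : e ≤ R := Nat.le_of_dvd hR (hD e he)
    have e1 : Q ^ (i + 1) * R = Q * (Q ^ i * R) := by ring
    refine ⟨?_, ?_, fun _ => by omega⟩
    · have h3 : SumDiv (Q ^ (i + 1) * R) 1 e := sumDiv_one ((hD e he).mul_left _)
      have h4 : SumDiv (Q ^ (i + 1) * R) i (Q * s) := by rw [e1]; exact h1.mul Q
      rw [add_comm i 1]
      have := h3.add h4
      rwa [add_comm i 1] at this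
    · rw [e1]
      have : Q * (s + R) ≤ Q * (Q ^ i * R) := Nat.mul_le_mul_left _ h2
      nlinarith

end Crest.Agent.R019
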