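import Mathlib
import Crest.Agent.R019.Basic

/-!
Exponential sums over finite sets of natural numbers.
-/

namespace Crest.Agent.R019

open Finset

/-- `e(x) = exp(2 π i x)`. -/
noncomputable def ee (x : ℝ) : ℂ := Complex.exp (Complex.I * ((2 * Real.pi * x : ℝ) : ℂ))

theorem ee_add (x y : ℝ) : ee (x + y) = ee x * ee y := by
  unfold ee
  rw [← Complex.exp_add]
  congr 1
  push_cast
  ring

theorem ee_zero : ee 0 = 1 := by simp [ee]

theorem ee_int (k : ℤ) : ee k = 1 := by
  unfold ee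
  rw [Complex.exp_eq_one_iff]
  exact ⟨k, by push_cast; ring⟩

theorem norm_ee (x : ℝ) : ‖ee x‖ = 1 := by
  unfold ee
  exact Complex.norm_exp_I_mul_ofReal _

theorem conj_ee (x : ℝ) : (starRingEnd ℂ) (ee x) = ee (-x) := by
  unfold ee
  rw [← Complex.exp_conj]
  congr 1
  simp only [map_mul, Complex.conj_I, Complex.conj_ofReal]
  push_cast
  ring

theorem ee_eq_one_iff (x : ℝ) : ee x = 1 ↔ ∃ k : ℤ, x = k := by
  constructor
  · intro h
    unfold ee at h
    rw [Complex.exp_eq_one_iff] at h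
    obtain ⟨k, hk⟩ := h
    refine ⟨k, ?_⟩
    have h2 : ((2 * Real.pi * x : ℝ) : ℂ) = ((2 * Real.pi * k : ℝ) : ℂ) := by
      apply mul_left_cancel₀ Complex.I_ne_zero
      rw [hk]
      push_cast
      ring
    have h3 : 2 * Real.pi * x = 2 * Real.pi * k := by exact_mod_cast h2
    have : (2 * Real.pi) ≠ 0 := by positivity
    exact mul_left_cancel₀ this h3
  · rintro ⟨k, rfl⟩
    exact ee_int k

theorem ee_nat_mul (n : ℕ) (x : ℝ) : ee (n * x) = ee x ^ n := by
  induction n with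
  | zero => simp [ee_zero]
  | succ n ih =>
    rw [pow_succ, ← ih, ← ee_add]
    congr 1
    push_cast
    ring

theorem norm_ee_sub (x y : ℝ) : ‖ee x - ee y‖ ≤ 2 * Real.pi * |x - y| := by
  have h : ee x - ee y = ee y * (ee (x - y) - 1) := by
    rw [mul_sub, ← ee_add]
    simp
  rw [h, norm_mul, norm_ee, one_mul]
  unfold ee
  refine (Real.norm_exp_I_mul_ofReal_sub_one_le).trans ?_
  rw [Real.norm_eq_abs, abs_mul, abs_of_pos (by positivity : (0 : ℝ) < 2 * Real.pi)]

theorem sum_ee (m : ℕ) (hm : 0 < m) (k : ℤ) :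
    ∑ t ∈ range m, ee (k * ((t : ℝ) / m)) = if (m : ℤ) ∣ k then (m : ℂ) else 0 := by
  have hmr : (0 : ℝ) < m := by exact_mod_cast hm
  have h1 : ∀ t : ℕ, ee (k * ((t : ℝ) / m)) = ee (k / m) ^ t := by
    intro t
    rw [← ee_nat_mul]
    congr 1
    ring
  simp_rw [h1]
  split_ifs with h
  · obtain ⟨c, rfl⟩ := h
    have : (((m : ℤ) * c : ℤ) : ℝ) / m = (c : ℝ) := by
      push_cast
      field_simp
    rw [this, ee_int]
    simp
  · have hne : ee (k / m) ≠ 1 := by
      intro h1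
      rw [ee_eq_one_iff] at h1
      obtain ⟨c, hc⟩ := h1
      apply h
      refine ⟨c, ?_⟩
      rw [div_eq_iff hmr.ne'] at hc
      have : (k : ℝ) = ((m : ℤ) * c : ℤ) := by push_cast; linarith
      exact_mod_cast this
    rw [geom_sum_eq hne, ← ee_nat_mul]
    have : (m : ℝ) * (k / m) = (k : ℝ) := by field_simp
    rw [this, ee_int]
    simp

/-- Normalised exponential sum of a finite set. -/
noncomputable def psi (T : Finset ℕ) (α : ℝ) : ℂ := (∑ x ∈ T, ee (x * α)) / (T.card : ℂ)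

/-- Collision probability modulo `v`. -/
noncomputable def coll (T : Finset ℕ) (v : ℕ) : ℝ :=
  (((T ×ˢ T).filter (fun z => (v : ℤ) ∣ (z.1 : ℤ) - z.2)).card : ℝ) / (T.card : ℝ) ^ 2

theorem coll_nonneg (T : Finset ℕ) (v : ℕ) : 0 ≤ coll T v := by
  unfold coll
  positivity

theorem psi_zero {T : Finset ℕ} (hT : T.Nonempty) : psi T 0 = 1 := by
  have : (T.card : ℂ) ≠ 0 := by exact_mod_cast hT.card_pos.ne'
  simp [psi, ee_zero, this]

theorem norm_psi_le (T : Finset ℕ) (α : ℝ) : ‖psi T α‖ ≤ 1 := by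
  unfold psi
  rw [norm_div, Complex.norm_natCast]
  apply div_le_one_of_le₀ _ (by positivity)
  refine (norm_sum_le _ _).trans ?_
  simp [norm_ee]

theorem psi_add_int (T : Finset ℕ) (α : ℝ) (k : ℤ) : psi T (α + k) = psi T α := by
  unfold psi
  congr 1
  apply sum_congr rfl
  intro x _
  rw [mul_add, ee_add]
  have : (x : ℝ) * k = ((x * k : ℤ) : ℝ) := by push_cast; ring
  rw [this, ee_int, mul_one]

theorem psi_lip {T : Finset ℕ} {X : ℕ} (hX : ∀ x ∈ T, x ≤ X) (α β : ℝ) :
    ‖psi T α - psi T β‖ ≤ 2 * Real.pi * X * |α - β| := by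
  unfold psi
  rcases T.eq_empty_or_nonempty with rfl | hT
  · simp; positivity
  have hc : (0 : ℝ) < T.card := by exact_mod_cast hT.card_pos
  rw [← sub_div, ← sum_sub_distrib, norm_div, Complex.norm_natCast, div_le_iff₀ hc]
  refine (norm_sum_le _ _).trans ?_
  have : ∀ x ∈ T, ‖ee (x * α) - ee (x * β)‖ ≤ 2 * Real.pi * X * |α - β| := by
    intro x hx
    refine (norm_ee_sub _ _).trans ?_
    rw [← mul_sub, abs_mul, Nat.abs_cast]
    have h1 : (x : ℝ) ≤ X := by exact_mod_cast hX x hx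
    have h2 : (x : ℝ) * |α - β| ≤ X * |α - β| := by gcongr
    have := Real.pi_pos
    nlinarith
  refine (sum_le_sum this).trans ?_
  simp [mul_comm]

theorem parseval (T : Finset ℕ) (m : ℕ) (hm : 0 < m) :
    ∑ t ∈ range m, ‖psi T ((t : ℝ) / m)‖ ^ 2 = m * coll T m := by
  have key : ∀ α : ℝ, ((‖∑ x ∈ T, ee (x * α)‖ ^ 2 : ℝ) : ℂ) =
      ∑ z ∈ T ×ˢ T, ee ((((z.1 : ℤ) - z.2 : ℤ) : ℝ) * α) := by
    intro α
    rw [← Complex.normSq_eq_norm_sq, ← Complex.mul_conj, map_sum, sum_mul_sum, sum_product]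
    apply sum_congr rfl
    intro x _
    apply sum_congr rfl
    intro y _
    rw [conj_ee, ← ee_add]
    congr 1
    push_cast
    ring
  have h2 : ((∑ t ∈ range m, ‖∑ x ∈ T, ee (x * ((t : ℝ) / m))‖ ^ 2 : ℝ) : ℂ) =
      ((m * ((T ×ˢ T).filter (fun z => (m : ℤ) ∣ (z.1 : ℤ) - z.2)).card : ℝ) : ℂ) := by
    rw [Complex.ofReal_sum]
    simp_rw [key]
    rw [sum_comm]
    simp_rw [sum_ee m hm]
    rw [← sum_filter]
    simp [mul_comm]
  have h3 := Complex.ofReal_injective h2
  unfold psi coll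
  simp_rw [norm_div, div_pow, Complex.norm_natCast]
  rw [← sum_div, h3, mul_div_assoc]

theorem coll_eq_of_lt {T : Finset ℕ} {X m : ℕ} (hX : ∀ x ∈ T, x ≤ X) (hm : X < m) :
    coll T m = 1 / T.card := by
  unfold coll
  have : (T ×ˢ T).filter (fun z => (m : ℤ) ∣ (z.1 : ℤ) - z.2) = T.diag := by
    ext ⟨x, y⟩
    simp only [mem_filter, mem_product, mem_diag]
    constructor
    · rintro ⟨⟨hx, hy⟩, h⟩
      refine ⟨hx, ?_⟩
      have h1 := hX x hx
      have h2 := hX y hy
      have := Int.eq_zero_of_dvd_of_natAbs_lt_natAbs h (by omega)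
      omega
    · rintro ⟨hx, rfl⟩
      exact ⟨⟨hx, hx⟩, by simp⟩
  rw [this, diag_card]
  rcases Nat.eq_zero_or_pos T.card with h | h
  · simp [h]
  · have : (T.card : ℝ) ≠ 0 := by exact_mod_cast h.ne'
    field_simp

theorem multiset_sum_product {α β : Type*} (s : Multiset α) (t : Multiset β) (f : α × β → ℂ) :
    ((s ×ˢ t).map f).sum = (s.map fun i ↦ (t.map fun j ↦ f (i, j)).sum).sum := by
  induction s using Multiset.induction <;> simp_all

/-- `F` is a multiple of the exponential sum of a multiset of positive integers, each a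
sum of at most `k` divisors of `n`. -/
def Gen (n k : ℕ) (F : ℝ → ℂ) : Prop :=
  ∃ (M : Multiset ℕ) (c : ℂ), (∀ x ∈ M, 0 < x ∧ SumDiv n k x) ∧
    ∀ α : ℝ, F α = c * (M.map (fun x : ℕ => ee (x * α))).sum

theorem Gen.mul {n k k' : ℕ} {F F' : ℝ → ℂ} (h : Gen n k F) (h' : Gen n k' F') :
    Gen n (k + k') (fun α => F α * F' α) := by
  obtain ⟨M, c, h1, h2⟩ := h
  obtain ⟨M', c', g1, g2⟩ := h'
  refine ⟨(M ×ˢ M').map (fun z => z.1 + z.2), c * c', ?_, ?_⟩
  · intro x hx
    obtain ⟨⟨a, b⟩, hab, rfl⟩ := Multiset.mem_map.1 hx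
    rw [Multiset.mem_product] at hab
    obtain ⟨ha, hb⟩ := hab
    exact ⟨Nat.add_pos_left (h1 a ha).1 _, (h1 a ha).2.add (g1 b hb).2⟩
  · intro α
    simp only
    rw [h2, g2, Multiset.map_map]
    have : ((M ×ˢ M').map ((fun x : ℕ => ee (x * α)) ∘ fun z : ℕ × ℕ => z.1 + z.2)).sum =
        (M.map (fun x : ℕ => ee (x * α))).sum * (M'.map (fun x : ℕ => ee (x * α))).sum := by
      rw [multiset_sum_product, ← Multiset.sum_map_mul_right]
      congr 1
      apply Multiset.map_congr rfl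
      intro x _
      rw [← Multiset.sum_map_mul_left]
      congr 1
      apply Multiset.map_congr rfl
      intro y _
      simp only [Function.comp]
      rw [← ee_add]
      congr 1
      push_cast
      ring
    rw [this]
    ring

theorem Gen.pow {n k : ℕ} {F : ℝ → ℂ} (h : Gen n k F) (j : ℕ) :
    Gen n ((j + 1) * k) (fun α => F α ^ (j + 1)) := by
  induction j with
  | zero => simpa using h
  | succ j ih =>
    have := ih.mul h
    have e1 : (j + 1) * k + k = (j + 1 + 1) * k := by ring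
    rw [e1] at this
    simpa [pow_succ] using this

theorem gen_psi {P n k w : ℕ} {T : Finset ℕ} (hT : ∀ x ∈ T, 0 < x ∧ SumDiv P k x) (hw : 0 < w)
    (hn : w * P ∣ n) : Gen n k (fun α => psi T (w * α)) := by
  refine ⟨T.val.map (fun x => w * x), 1 / (T.card : ℂ), ?_, ?_⟩
  · intro x hx
    obtain ⟨y, hy, rfl⟩ := Multiset.mem_map.1 hx
    exact ⟨Nat.mul_pos hw (hT y hy).1, ((hT y hy).2.mul w).of_dvd hn⟩
  · intro α
    simp only [psi]
    rw [Multiset.map_map, div_eq_mul_one_div, mul_comm]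
    congr 1
    rw [Finset.sum]
    congr 1
    apply Multiset.map_congr rfl
    intro x _
    simp only [Function.comp]
    congr 1
    push_cast
    ring

theorem Gen.exists_dvd {n k : ℕ} {F : ℝ → ℂ} (h : Gen n k F) {p : ℕ} (hp : 0 < p)
    (h0 : F 0 = 1) (hsum : ∑ t ∈ (range p).erase 0, ‖F ((t : ℝ) / p)‖ < 1) :
    ∃ x, 0 < x ∧ SumDiv n k x ∧ p ∣ x := by
  obtain ⟨M, c, h1, h2⟩ := h
  by_contra hcon
  push Not at hcon
  have hz : ∑ t ∈ range p, F ((t : ℝ) / p) = 0 := by
    simp_rw [h2]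
    rw [← mul_sum]
    have : ∑ t ∈ range p, (M.map (fun x : ℕ => ee (x * ((t : ℝ) / p)))).sum =
        (M.map (fun x : ℕ => ∑ t ∈ range p, ee (x * ((t : ℝ) / p)))).sum := by
      rw [Multiset.sum_map_sum]
    rw [this]
    have h3 : M.map (fun x : ℕ => ∑ t ∈ range p, ee (x * ((t : ℝ) / p))) =
        M.map (fun _ => (0 : ℂ)) := by
      apply Multiset.map_congr rfl
      intro x hx
      have := sum_ee p hp (x : ℤ)
      rw [if_neg] at this
      · simpa using this
      · intro hd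
        exact hcon x (h1 x hx).1 (h1 x hx).2 (by exact_mod_cast hd)
    rw [h3]
    simp
  rw [← add_sum_erase _ _ (mem_range.2 hp)] at hz
  simp only [Nat.cast_zero, zero_div, h0] at hz
  have h4 : ‖∑ t ∈ (range p).erase 0, F ((t : ℝ) / p)‖ = 1 := by
    rw [eq_neg_of_add_eq_zero_right hz]
    simp
  have := norm_sum_le ((range p).erase 0) (fun t => F ((t : ℝ) / p))
  linarith

end Crest.Agent.R019
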