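import Mathlib
import Crest.Agent.R019.Fourier

/-!
Choice of the first multiplier: the large spectrum is pushed into the major arcs.
-/

namespace Crest.Agent.R019

open Finset

/-- `α` is close to a rational number with denominator `W * i`, `1 ≤ i < J`. -/
def Major (W J Q₀ : ℕ) (α : ℝ) : Prop :=
  ∃ i : ℕ, 1 ≤ i ∧ i < J ∧ ∃ k : ℤ, |((W * i : ℕ) : ℝ) * α - k| * Q₀ ≤ 3 * (W * J : ℕ)

/-- The multiplier `y` pushes the large spectrum of `S` into the major arcs. -/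
def GoodA (S : Finset ℕ) (E W J Q₀ y : ℕ) : Prop :=
  ∀ α : ℝ, 1 / (E : ℝ) ≤ ‖psi S α‖ → 1 / (E : ℝ) ≤ ‖psi S (y * α)‖ → Major W J Q₀ α

/-- Grid points with a large Fourier coefficient. -/
noncomputable def Gam (S : Finset ℕ) (E Q₀ : ℕ) : Finset ℕ :=
  (range Q₀).filter (fun g => 1 / (2 * (E : ℝ)) ≤ ‖psi S ((g : ℝ) / Q₀)‖)

theorem card_Gam {S : Finset ℕ} {P E Q₀ : ℕ} (hS : ∀ x ∈ S, x ≤ P) (hE : 0 < E) (hQ : P < Q₀) :
    ((Gam S E Q₀).card : ℝ) ≤ 4 * E ^ 2 * Q₀ / S.card := by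
  have h1 := parseval S Q₀ (by omega)
  rw [coll_eq_of_lt hS hQ] at h1
  have hEr : (0 : ℝ) < E := by exact_mod_cast hE
  have h2 : ((Gam S E Q₀).card : ℝ) * (1 / (2 * (E : ℝ))) ^ 2 ≤
      ∑ t ∈ range Q₀, ‖psi S ((t : ℝ) / Q₀)‖ ^ 2 := by
    calc ((Gam S E Q₀).card : ℝ) * (1 / (2 * (E : ℝ))) ^ 2
        = ∑ _t ∈ Gam S E Q₀, (1 / (2 * (E : ℝ))) ^ 2 := by simp
      _ ≤ ∑ t ∈ Gam S E Q₀, ‖psi S ((t : ℝ) / Q₀)‖ ^ 2 := by
          apply sum_le_sum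
          intro t ht
          have := (mem_filter.1 ht).2
          gcongr
      _ ≤ _ := sum_le_sum_of_subset_of_nonneg (filter_subset _ _) (fun _ _ _ => by positivity)
  rw [h1] at h2
  have h3 : ((Gam S E Q₀).card : ℝ) =
      ((Gam S E Q₀).card : ℝ) * (1 / (2 * (E : ℝ))) ^ 2 * (4 * E ^ 2) := by
    field_simp
    ring
  rw [h3]
  calc _ ≤ (Q₀ * (1 / (S.card : ℝ))) * (4 * E ^ 2) := by gcongr
    _ = _ := by ring

theorem grid {S : Finset ℕ} {P E Q₀ : ℕ} (hS : ∀ x ∈ S, x ≤ P) (hE : 0 < E) (hP : 0 < P)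
    (hQ : 13 * E * P ≤ Q₀) {α : ℝ} (hα : 1 / (E : ℝ) ≤ ‖psi S α‖) :
    ∃ g ∈ Gam S E Q₀, ∃ k : ℤ, ∃ θ : ℝ, 0 ≤ θ ∧ θ < 1 ∧ Q₀ * α = g + k * Q₀ + θ := by
  have hQ0 : 0 < Q₀ := lt_of_lt_of_le (by positivity) hQ
  have hQr : (0 : ℝ) < Q₀ := by exact_mod_cast hQ0
  have hEr : (0 : ℝ) < E := by exact_mod_cast hE
  set g : ℤ := ⌊Q₀ * α⌋ with hg
  have hmod0 : 0 ≤ g % Q₀ := Int.emod_nonneg _ (by exact_mod_cast hQ0.ne')
  have hmod1 : g % Q₀ < Q₀ := Int.emod_lt_of_pos _ (by exact_mod_cast hQ0)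
  obtain ⟨g₀, hg₀⟩ := Int.eq_ofNat_of_zero_le hmod0
  have hdiv : (g : ℝ) = g₀ + (g / Q₀ : ℤ) * Q₀ := by
    have := Int.emod_add_mul_ediv g Q₀
    rw [hg₀] at this
    have h2 : ((g₀ + Q₀ * (g / Q₀) : ℤ) : ℝ) = g := by exact_mod_cast this
    push_cast at h2
    linarith
  have hθ0 : 0 ≤ Q₀ * α - g := by
    have := Int.floor_le (Q₀ * α)
    linarith
  have hθ1 : Q₀ * α - g < 1 := by
    have := Int.lt_floor_add_one (Q₀ * α)
    linarith
  refine ⟨g₀, ?_, g / Q₀, Q₀ * α - g, hθ0, hθ1, by linarith⟩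
  unfold Gam
  rw [mem_filter, mem_range]
  refine ⟨by omega, ?_⟩
  have h1 : psi S ((g₀ : ℝ) / Q₀) = psi S ((g₀ : ℝ) / Q₀ + (g / Q₀ : ℤ)) := (psi_add_int _ _ _).symm
  have h2 : (g₀ : ℝ) / Q₀ + (g / Q₀ : ℤ) = g / Q₀ := by
    rw [hdiv]
    field_simp
  rw [h1, h2]
  have h3 := psi_lip hS α ((g : ℝ) / Q₀)
  have h4 : |α - (g : ℝ) / Q₀| ≤ 1 / Q₀ := by
    have : α - (g : ℝ) / Q₀ = (Q₀ * α - g) / Q₀ := by field_simp
    rw [this, abs_of_nonneg (by positivity)]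
    gcongr
  have h5 : 2 * Real.pi * P * (1 / (Q₀ : ℝ)) ≤ 1 / (2 * (E : ℝ)) := by
    have hpi := Real.pi_lt_d2
    have hQ' : (13 * E * P : ℝ) ≤ Q₀ := by exact_mod_cast hQ
    have hPr : (0 : ℝ) < P := by exact_mod_cast hP
    rw [mul_one_div, div_le_div_iff₀ hQr (by positivity)]
    nlinarith [mul_pos hEr hPr]
  have h6 : ‖psi S α - psi S ((g : ℝ) / Q₀)‖ ≤ 1 / (2 * (E : ℝ)) := by
    refine h3.trans (le_trans ?_ h5)
    gcongr
  have h7 := norm_sub_norm_le (psi S α) (psi S ((g : ℝ) / Q₀))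
  have h8 : 1 / (E : ℝ) = 1 / (2 * (E : ℝ)) + 1 / (2 * (E : ℝ)) := by
    field_simp
    ring
  linarith

open Classical in
theorem card_not_goodA {S : Finset ℕ} {P E W J Q₀ : ℕ} (hS : ∀ x ∈ S, x ≤ P) (hE : 0 < E)
    (hP : 0 < P) (hW : 0 < W) (hQ : 13 * E * P ≤ Q₀) :
    ((range J).filter (fun j => ¬ GoodA S E W J Q₀ (1 + W * j))).card ≤ (Gam S E Q₀).card ^ 2 := by
  have hQ0 : 0 < Q₀ := lt_of_lt_of_le (by positivity) hQ
  have hQr : (0 : ℝ) < Q₀ := by exact_mod_cast hQ0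
  -- grid version of "major"
  let maj : ℕ → Prop := fun g => ∃ i : ℕ, 1 ≤ i ∧ i < J ∧ ∃ k : ℤ,
    |((W * i : ℕ) : ℤ) * g - k * Q₀| ≤ 2 * (W * J : ℕ)
  let hit : ℕ → ℕ × ℕ → Prop := fun j z => ∃ k : ℤ,
    |((1 + W * j : ℕ) : ℤ) * z.1 - z.2 - k * Q₀| ≤ (W * J : ℕ)
  let Z := (Gam S E Q₀ ×ˢ Gam S E Q₀).filter (fun z => ¬ maj z.1)
  have hsub : (range J).filter (fun j => ¬ GoodA S E W J Q₀ (1 + W * j)) ⊆
      Z.biUnion (fun z => (range J).filter (fun j => hit j z)) := by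
    intro j hj
    rw [mem_filter, mem_range] at hj
    obtain ⟨hjJ, hbad⟩ := hj
    unfold GoodA at hbad
    push Not at hbad
    obtain ⟨α, h1, h2, h3⟩ := hbad
    obtain ⟨g, hg, k, θ, hθ0, hθ1, hα⟩ := grid hS hE hP hQ h1
    obtain ⟨g', hg', k', θ', hθ0', hθ1', hα'⟩ := grid hS hE hP hQ h2
    have hy : 1 + W * j ≤ W * J := by
      have : W * (j + 1) ≤ W * J := Nat.mul_le_mul_left _ hjJ
      nlinarith
    have hyr : ((1 + W * j : ℕ) : ℝ) ≤ (W * J : ℕ) := by exact_mod_cast hy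
    have hy1 : (1 : ℝ) ≤ ((1 + W * j : ℕ) : ℝ) := by exact_mod_cast Nat.le_add_right _ _
    rw [mem_biUnion]
    refine ⟨(g, g'), ?_, ?_⟩
    · rw [mem_filter, mem_product]
      refine ⟨⟨hg, hg'⟩, ?_⟩
      rintro ⟨i, hi1, hiJ, c, hc⟩
      apply h3
      refine ⟨i, hi1, hiJ, c + (W * i : ℕ) * k, ?_⟩
      have hc' : |((W * i : ℕ) : ℝ) * g - c * Q₀| ≤ 2 * (W * J : ℕ) := by exact_mod_cast hc
      have hWi : ((W * i : ℕ) : ℝ) ≤ (W * J : ℕ) := by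
        exact_mod_cast Nat.mul_le_mul_left _ hiJ.le
      have hWi0 : (0 : ℝ) ≤ ((W * i : ℕ) : ℝ) := by positivity
      have e1 : |((W * i : ℕ) : ℝ) * α - ((c + (W * i : ℕ) * k : ℤ) : ℝ)| * Q₀ =
          |(((W * i : ℕ) : ℝ) * g - c * Q₀) + ((W * i : ℕ) : ℝ) * θ| := by
        rw [← abs_of_pos hQr, ← abs_mul, abs_of_pos hQr]
        congr 1
        have : ((W * i : ℕ) : ℝ) * α * Q₀ = ((W * i : ℕ) : ℝ) * (g + k * Q₀ + θ) := by
          rw [← hα]; ring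
        push_cast at this ⊢
        linarith
      rw [e1]
      refine (abs_add_le _ _).trans ?_
      rw [abs_of_nonneg (mul_nonneg hWi0 hθ0)]
      nlinarith
    · rw [mem_filter, mem_range]
      refine ⟨hjJ, k' - (1 + W * j : ℕ) * k, ?_⟩
      have e1 : ((1 + W * j : ℕ) : ℝ) * g - g' - ((k' - (1 + W * j : ℕ) * k : ℤ) : ℝ) * Q₀ =
          θ' - ((1 + W * j : ℕ) : ℝ) * θ := by
        have : Q₀ * (((1 + W * j : ℕ) : ℝ) * α) = ((1 + W * j : ℕ) : ℝ) * (g + k * Q₀ + θ) := by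
          rw [← hα]; ring
        rw [hα'] at this
        push_cast at this ⊢
        linarith
      have e2 : |((1 + W * j : ℕ) : ℝ) * g - g' - ((k' - (1 + W * j : ℕ) * k : ℤ) : ℝ) * Q₀| ≤
          (W * J : ℕ) := by
        rw [e1, abs_le]
        constructor <;> nlinarith
      exact_mod_cast e2
  refine (card_le_card hsub).trans (card_biUnion_le.trans ?_)
  have hone : ∀ z ∈ Z, ((range J).filter (fun j => hit j z)).card ≤ 1 := by
    intro z hz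
    have hz2 := (mem_filter.1 hz).2
    rw [card_le_one]
    have key : ∀ a b : ℕ, b < J → a < b → hit a z → hit b z → False := by
      rintro a b hb hab ⟨k, hk⟩ ⟨k', hk'⟩
      apply hz2
      refine ⟨b - a, by omega, by omega, k' - k, ?_⟩
      have e1 : ((W * (b - a) : ℕ) : ℤ) * z.1 - (k' - k) * Q₀ =
          (((1 + W * b : ℕ) : ℤ) * z.1 - z.2 - k' * Q₀) -
            (((1 + W * a : ℕ) : ℤ) * z.1 - z.2 - k * Q₀) := by
        push_cast [Nat.cast_sub hab.le]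
        ring
      rw [e1]
      refine (abs_sub _ _).trans ?_
      linarith
    intro a ha b hb
    rw [mem_filter, mem_range] at ha hb
    rcases lt_trichotomy a b with h | h | h
    · exact (key a b hb.1 h ha.2 hb.2).elim
    · exact h
    · exact (key b a ha.1 h hb.2 ha.2).elim
  calc ∑ z ∈ Z, ((range J).filter (fun j => hit j z)).card ≤ ∑ _z ∈ Z, 1 := sum_le_sum hone
    _ = Z.card := by simp
    _ ≤ (Gam S E Q₀ ×ˢ Gam S E Q₀).card := card_filter_le _ _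
    _ = _ := by rw [card_product, sq]

/-- The lattice argument: if `t/p` and `y t/p` are both major then `t/p` is exactly a rational
with small denominator. -/
theorem lattice {W J Q₀ p y t : ℕ} (hp : 0 < p) (hQ : 0 < Q₀)
    (h1 : Major W J Q₀ ((t : ℝ) / p)) (h2 : Major W J Q₀ (y * ((t : ℝ) / p)))
    (c1 : 3 * J * (W * J) * p < y * Q₀) (c2 : 6 * J * (W * J) * y < Q₀) :
    ∃ i : ℕ, 1 ≤ i ∧ i < J ∧ p ∣ W * i * t := by
  obtain ⟨i, hi1, hiJ, k, hk⟩ := h1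
  obtain ⟨i', hi1', hiJ', k', hk'⟩ := h2
  have hpr : (0 : ℝ) < p := by exact_mod_cast hp
  set Y : ℕ := W * J with hY
  set τ : ℤ := (W * i * t : ℕ) - k * p with hτ
  set τ' : ℤ := (W * i' * y * t : ℕ) - k' * p with hτ'
  have e1 : |τ| * Q₀ ≤ 3 * Y * p := by
    have : ((|τ| * Q₀ : ℤ) : ℝ) ≤ ((3 * Y * p : ℤ) : ℝ) := by
      have e : ((τ : ℤ) : ℝ) = (((W * i : ℕ) : ℝ) * ((t : ℝ) / p) - k) * p := by
        rw [hτ]; push_cast; field_simp
      push_cast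
      rw [e, abs_mul, abs_of_pos hpr]
      nlinarith
    exact_mod_cast this
  have e2 : |τ'| * Q₀ ≤ 3 * Y * p := by
    have : ((|τ'| * Q₀ : ℤ) : ℝ) ≤ ((3 * Y * p : ℤ) : ℝ) := by
      have e : ((τ' : ℤ) : ℝ) = (((W * i' : ℕ) : ℝ) * (y * ((t : ℝ) / p)) - k') * p := by
        rw [hτ']; push_cast; field_simp
      push_cast
      rw [e, abs_mul, abs_of_pos hpr]
      nlinarith
    exact_mod_cast this
  have c1' : (3 * J * Y * p : ℤ) < y * Q₀ := by exact_mod_cast c1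
  have c2' : (6 * J * Y * y : ℤ) < Q₀ := by exact_mod_cast c2
  have hQ' : (0 : ℤ) < Q₀ := by exact_mod_cast hQ
  have hp' : (0 : ℤ) < p := by exact_mod_cast hp
  have hy : (1 : ℤ) ≤ y := by
    have : (0 : ℤ) ≤ 3 * J * Y * p := by positivity
    by_contra hlt
    have : (y : ℤ) = 0 := by omega
    rw [this] at c1'
    omega
  have hiJz : (i : ℤ) ≤ J := by exact_mod_cast hiJ.le
  have hiJz' : (i' : ℤ) ≤ J := by exact_mod_cast hiJ'.le
  have hi1z : (1 : ℤ) ≤ i' := by exact_mod_cast hi1'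
  have hdvd : (p : ℤ) ∣ i' * y * τ - i * τ' := by
    refine ⟨i * k' - i' * y * k, ?_⟩
    rw [hτ, hτ']
    push_cast
    ring
  have habs0 := abs_nonneg τ
  have habs0' := abs_nonneg τ'
  have hsmall : |i' * y * τ - i * τ'| < p := by
    have a1 : |(i' : ℤ) * y * τ - i * τ'| ≤ i' * y * |τ| + i * |τ'| := by
      refine (abs_sub _ _).trans ?_
      rw [abs_mul, abs_mul, abs_mul, Nat.abs_cast, Nat.abs_cast, Nat.abs_cast]
    have a2 : ((i' : ℤ) * y * |τ| + i * |τ'|) * Q₀ ≤ 6 * J * Y * y * p := by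
      have b1 : (i' : ℤ) * y * (|τ| * Q₀) ≤ J * y * (3 * Y * p) := by gcongr
      have b2 : (i : ℤ) * (|τ'| * Q₀) ≤ J * y * (3 * Y * p) := by
        calc (i : ℤ) * (|τ'| * Q₀) ≤ J * (3 * Y * p) := by gcongr
          _ = J * 1 * (3 * Y * p) := by ring
          _ ≤ J * y * (3 * Y * p) := by gcongr
      nlinarith
    have a3 : ((i' : ℤ) * y * |τ| + i * |τ'|) * Q₀ < p * Q₀ := by nlinarith
    have a4 := lt_of_mul_lt_mul_right a3 hQ'.le
    omega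
  have hzero : (i' : ℤ) * y * τ - i * τ' = 0 :=
    Int.eq_zero_of_abs_lt_dvd hdvd hsmall
  have hτ0 : τ = 0 := by
    by_contra hne
    have a1 : 1 ≤ |τ| := Int.one_le_abs hne
    have a2 : (i' : ℤ) * y * |τ| = i * |τ'| := by
      have : (i' : ℤ) * y * τ = i * τ' := by linarith
      have h := congrArg abs this
      rwa [abs_mul, abs_mul, abs_mul, Nat.abs_cast, Nat.abs_cast, Nat.abs_cast] at h
    have a3 : (y : ℤ) ≤ i' * y * |τ| := by
      calc (y : ℤ) = 1 * y * 1 := by ring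
        _ ≤ i' * y * |τ| := by gcongr
    have a4 : (i : ℤ) * (|τ'| * Q₀) ≤ J * (3 * Y * p) := by gcongr
    nlinarith
  refine ⟨i, hi1, hiJ, ?_⟩
  have : ((p : ℕ) : ℤ) ∣ ((W * i * t : ℕ) : ℤ) := ⟨k, by rw [hτ] at hτ0; linarith⟩
  exact_mod_cast this

end Crest.Agent.R019
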