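import Mathlib
import Crest.Agent.R019.Fourier

/-!
Averaging over the two multipliers: the exact rationals contribute little.
-/

namespace Crest.Agent.R019

open Finset

theorem sum_range_affine (g : ℕ → ℝ) {v c : ℕ} (hv : 0 < v) (hg : ∀ x, g (x % v) = g x)
    (hc : Nat.Coprime c v) (d : ℕ) :
    ∑ j ∈ range v, g (d + c * j) = ∑ w ∈ range v, g w := by
  have hinj : Set.InjOn (fun j => (d + c * j) % v) (range v : Set ℕ) := by
    intro a ha b hb hab
    simp only [coe_range, Set.mem_Iio] at ha hb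
    have h1 : d + c * a ≡ d + c * b [MOD v] := hab
    have h2 : c * a ≡ c * b [MOD v] := Nat.ModEq.add_left_cancel' d h1
    have h3 : a ≡ b [MOD v] := Nat.ModEq.cancel_left_of_coprime hc.symm h2
    exact Nat.ModEq.eq_of_lt_of_lt h3 ha hb
  have himg : (range v).image (fun j => (d + c * j) % v) = range v := by
    apply eq_of_subset_of_card_le
    · intro x hx
      obtain ⟨j, _, rfl⟩ := mem_image.1 hx
      exact mem_range.2 (Nat.mod_lt _ hv)
    · rw [card_image_of_injOn hinj]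
  conv_rhs => rw [← himg, sum_image hinj]
  exact sum_congr rfl (fun j _ => (hg _).symm)

theorem sum_range_affine_le (g : ℕ → ℝ) {v c : ℕ} (hv : 0 < v) (hg : ∀ x, g (x % v) = g x)
    (hg0 : ∀ x, 0 ≤ g x) (hc : Nat.Coprime c v) (d J : ℕ) :
    ∑ j ∈ range J, g (d + c * j) ≤ ((J : ℝ) / v + 1) * ∑ w ∈ range v, g w := by
  have key : ∀ N : ℕ, ∑ j ∈ range (v * N), g (d + c * j) = N * ∑ w ∈ range v, g w := by
    intro N
    induction N with
    | zero => simp
    | succ N ih =>
      rw [Nat.mul_succ, sum_range_add, ih]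
      have := sum_range_affine g hv hg hc (d + c * (v * N))
      simp_rw [mul_add, ← add_assoc]
      rw [this]
      push_cast
      ring
  have hJ : J ≤ v * (J / v + 1) := (Nat.lt_mul_div_succ J hv).le
  calc ∑ j ∈ range J, g (d + c * j) ≤ ∑ j ∈ range (v * (J / v + 1)), g (d + c * j) :=
        sum_le_sum_of_subset_of_nonneg (range_mono hJ) (fun _ _ _ => hg0 _)
    _ = ((J / v + 1 : ℕ) : ℝ) * ∑ w ∈ range v, g w := key _
    _ ≤ _ := by
        apply mul_le_mul_of_nonneg_right _ (sum_nonneg (fun _ _ => hg0 _))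
        push_cast
        have := @Nat.cast_div_le ℝ _ _ _ J v
        linarith

theorem card_dvd_affine_le {v c : ℕ} (hv : 0 < v) (hc : Nat.Coprime c v) (d J : ℕ) :
    (((range J).filter (fun j => v ∣ d + c * j)).card : ℝ) ≤ (J : ℝ) / v + 1 := by
  have h := sum_range_affine_le (fun x => if v ∣ x then (1 : ℝ) else 0) hv
    (fun x => by simp [Nat.dvd_mod_iff]) (fun x => by split_ifs <;> norm_num) hc d J
  have h2 : ∑ w ∈ range v, (if v ∣ w then (1 : ℝ) else 0) = 1 := by
    rw [sum_eq_single 0]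
    · simp
    · intro b hb hb0
      rw [if_neg]
      intro hd
      exact hb0 (Nat.eq_zero_of_dvd_of_lt hd (mem_range.1 hb))
    · intro h
      exact (h (mem_range.2 hv)).elim
  rw [h2, mul_one, ← sum_filter] at h
  simpa using h

/-- Contribution of the exact rationals with denominator `v`. -/
noncomputable def Ev (T : Finset ℕ) (v y : ℕ) : ℝ :=
  ∑ u ∈ (range v).filter (fun u => Nat.Coprime u v),
    ‖psi T ((u : ℝ) / v)‖ ^ 2 * ‖psi T (y * ((u : ℝ) / v))‖ ^ 2

theorem Ev_nonneg (T : Finset ℕ) (v y : ℕ) : 0 ≤ Ev T v y := by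
  unfold Ev
  positivity

theorem sum_Ev_le (T : Finset ℕ) {v W J : ℕ} (hv : 0 < v) (hvJ : v ≤ J) (hW : Nat.Coprime W v) :
    ∑ j ∈ range J, Ev T v (1 + W * j) ≤ 2 * J * v * coll T v ^ 2 := by
  have hvr : (0 : ℝ) < v := by exact_mod_cast hv
  have hvJr : (v : ℝ) ≤ J := by exact_mod_cast hvJ
  have hc := coll_nonneg T v
  unfold Ev
  rw [sum_comm]
  have hper : ∀ x : ℕ, ‖psi T (((x % v : ℕ) : ℝ) / v)‖ ^ 2 = ‖psi T ((x : ℝ) / v)‖ ^ 2 := by
    intro x
    have h1 : (x : ℝ) / v = ((x % v : ℕ) : ℝ) / v + ((x / v : ℕ) : ℤ) := by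
      have := Nat.mod_add_div x v
      have h2 : (x : ℝ) = ((x % v : ℕ) : ℝ) + v * ((x / v : ℕ) : ℝ) := by exact_mod_cast this.symm
      rw [Int.cast_natCast]
      field_simp
      linarith
    rw [h1, psi_add_int]
  have h1 : ∀ u ∈ (range v).filter (fun u => Nat.Coprime u v),
      ∑ j ∈ range J, ‖psi T ((u : ℝ) / v)‖ ^ 2 * ‖psi T (((1 + W * j : ℕ) : ℝ) * ((u : ℝ) / v))‖ ^ 2
        ≤ ‖psi T ((u : ℝ) / v)‖ ^ 2 * (2 * J * coll T v) := by
    intro u hu
    rw [← mul_sum]
    apply mul_le_mul_of_nonneg_left _ (by positivity)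
    have hu2 := (mem_filter.1 hu).2
    have h2 := sum_range_affine_le (fun x : ℕ => ‖psi T ((x : ℝ) / v)‖ ^ 2) hv hper
      (fun x => by positivity) (Nat.Coprime.mul_left hW hu2) u J
    rw [parseval T v hv] at h2
    have h3 : ∀ j : ℕ, ((1 + W * j : ℕ) : ℝ) * ((u : ℝ) / v) = ((u + W * u * j : ℕ) : ℝ) / v := by
      intro j
      push_cast
      ring
    simp_rw [h3]
    refine h2.trans ?_
    have : ((J : ℝ) / v + 1) * (v * coll T v) = (J + v) * coll T v := by field_simp
    rw [this]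
    gcongr
    linarith
  refine (sum_le_sum h1).trans ?_
  rw [← sum_mul]
  have h4 : ∑ u ∈ (range v).filter (fun u => Nat.Coprime u v), ‖psi T ((u : ℝ) / v)‖ ^ 2 ≤
      v * coll T v := by
    rw [← parseval T v hv]
    exact sum_le_sum_of_subset_of_nonneg (filter_subset _ _) (fun _ _ _ => by positivity)
  calc _ ≤ (v * coll T v) * (2 * J * coll T v) := by gcongr
    _ = _ := by ring

theorem sum_min_Ev_le (T : Finset ℕ) {v W J : ℕ} (hv : 0 < v) (hvJ : v ≤ J)
    (hW : Nat.Coprime W v) :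
    ∑ j ∈ range J, min 1 (2 * Ev T v (1 + W * j)) ≤ J * (2 * √v * coll T v) := by
  have hc := coll_nonneg T v
  set x : ℝ := 2 * √v * coll T v with hx
  have hx0 : 0 ≤ x := by positivity
  have hJ0 : (0 : ℝ) ≤ J := by positivity
  rcases le_total 1 x with h | h
  · calc _ ≤ ∑ _j ∈ range J, (1 : ℝ) := sum_le_sum (fun _ _ => min_le_left _ _)
      _ = J * 1 := by simp
      _ ≤ _ := by gcongr
  · calc _ ≤ ∑ j ∈ range J, 2 * Ev T v (1 + W * j) := sum_le_sum (fun _ _ => min_le_right _ _)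
      _ = 2 * ∑ j ∈ range J, Ev T v (1 + W * j) := by rw [mul_sum]
      _ ≤ 2 * (2 * J * v * coll T v ^ 2) := by gcongr; exact sum_Ev_le T hv hvJ hW
      _ = J * (x * x) := by
          have : √(v : ℝ) * √v = v := Real.mul_self_sqrt (by positivity)
          rw [hx]
          linear_combination (-4 * J * coll T v ^ 2) * this
      _ ≤ J * x := by
          gcongr
          nlinarith

/-- The possible denominators of exact rationals. -/
def Vs (W J : ℕ) : Finset ℕ := (Ioo 1 J).filter (fun v => Nat.Coprime W v)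

theorem stepB (T : ℕ → Finset ℕ) (W J : ℕ) (G : Finset ℕ) (hG : G ⊆ range J)
    (hGc : J < 2 * G.card) (p₀ r : ℕ → ℕ)
    (hcop : ∀ j ∈ G, ∀ h, Nat.Coprime (r j) (p₀ j + r j * W * h))
    (hκ : ∑ v ∈ Vs W J, coll (T v) v / √v ≤ 1 / 8) :
    ∃ j ∈ G, ∃ h < J, ∑ v ∈ (Vs W J).filter (fun v => v ∣ p₀ j + r j * W * h),
      Ev (T v) v (1 + W * j) < 1 / 2 := by
  by_contra hcon
  push Not at hcon
  have hJ0 : 0 < J := by
    rcases Nat.eq_zero_or_pos J with h | h
    · subst h
      have : G = ∅ := by simpa using hG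
      simp [this] at hGc
    · exact h
  have hJr : (0 : ℝ) < J := by exact_mod_cast hJ0
  -- lower bound for the penalty
  have hlow : ∀ j ∈ G, ∀ h ∈ range J, (1 : ℝ) ≤
      ∑ v ∈ Vs W J, if v ∣ p₀ j + r j * W * h then min 1 (2 * Ev (T v) v (1 + W * j)) else 0 := by
    intro j hj h hh
    rw [← sum_filter]
    have h1 := hcon j hj h (mem_range.1 hh)
    by_cases hex : ∃ v ∈ (Vs W J).filter (fun v => v ∣ p₀ j + r j * W * h),
        1 ≤ 2 * Ev (T v) v (1 + W * j)
    · obtain ⟨v, hv, hv1⟩ := hex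
      calc (1 : ℝ) = min 1 (2 * Ev (T v) v (1 + W * j)) := (min_eq_left hv1).symm
        _ ≤ _ := single_le_sum (f := fun v => min 1 (2 * Ev (T v) v (1 + W * j)))
            (fun v _ => le_min zero_le_one (by have := Ev_nonneg (T v) v (1 + W * j); linarith)) hv
    · push Not at hex
      rw [sum_congr rfl (fun v hv => min_eq_right (hex v hv).le), ← mul_sum]
      linarith
  have hlow2 : (G.card : ℝ) * J ≤ ∑ j ∈ G, ∑ h ∈ range J,
      ∑ v ∈ Vs W J, if v ∣ p₀ j + r j * W * h then min 1 (2 * Ev (T v) v (1 + W * j)) else 0 := by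
    calc (G.card : ℝ) * J = ∑ _j ∈ G, ∑ _h ∈ range J, (1 : ℝ) := by simp
      _ ≤ _ := sum_le_sum (fun j hj => sum_le_sum (fun h hh => hlow j hj h hh))
  have hup : ∑ j ∈ G, ∑ h ∈ range J,
      (∑ v ∈ Vs W J, if v ∣ p₀ j + r j * W * h then min 1 (2 * Ev (T v) v (1 + W * j)) else 0) ≤
      4 * J ^ 2 * ∑ v ∈ Vs W J, coll (T v) v / √v := by
    have e1 : ∀ j ∈ G, ∑ h ∈ range J,
        (∑ v ∈ Vs W J, if v ∣ p₀ j + r j * W * h then min 1 (2 * Ev (T v) v (1 + W * j)) else 0) ≤
        ∑ v ∈ Vs W J, (2 * J / v) * min 1 (2 * Ev (T v) v (1 + W * j)) := by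
      intro j hj
      rw [sum_comm]
      apply sum_le_sum
      intro v hv
      unfold Vs at hv
      rw [mem_filter, mem_Ioo] at hv
      obtain ⟨⟨hv1, hvJ⟩, hvW⟩ := hv
      have hvr : (0 : ℝ) < v := by exact_mod_cast (by omega : 0 < v)
      have hm0 : 0 ≤ min 1 (2 * Ev (T v) v (1 + W * j)) :=
        le_min zero_le_one (by have := Ev_nonneg (T v) v (1 + W * j); linarith)
      rw [← sum_filter, sum_const, nsmul_eq_mul]
      apply mul_le_mul_of_nonneg_right _ hm0
      rcases ((range J).filter (fun h => v ∣ p₀ j + r j * W * h)).eq_empty_or_nonempty with he | he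
      · rw [he]; simp; positivity
      · obtain ⟨h, hh⟩ := he
        have hd := (mem_filter.1 hh).2
        have hc : Nat.Coprime (r j) v := Nat.Coprime.coprime_dvd_right hd (hcop j hj h)
        refine (card_dvd_affine_le (by omega) (Nat.Coprime.mul_left hc hvW) _ _).trans ?_
        have : (1 : ℝ) ≤ J / v := by
          rw [le_div_iff₀ hvr, one_mul]
          exact_mod_cast hvJ.le
        rw [mul_div_assoc]
        linarith
    refine (sum_le_sum e1).trans ?_
    rw [sum_comm, mul_sum]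
    apply sum_le_sum
    intro v hv
    unfold Vs at hv
    rw [mem_filter, mem_Ioo] at hv
    obtain ⟨⟨hv1, hvJ⟩, hvW⟩ := hv
    have hvr : (0 : ℝ) < v := by exact_mod_cast (by omega : 0 < v)
    rw [← mul_sum]
    have h1 : ∑ j ∈ G, min 1 (2 * Ev (T v) v (1 + W * j)) ≤ J * (2 * √v * coll (T v) v) := by
      refine le_trans ?_ (sum_min_Ev_le (T v) (by omega) hvJ.le hvW)
      exact sum_le_sum_of_subset_of_nonneg hG
        (fun j _ _ => le_min zero_le_one (by have := Ev_nonneg (T v) v (1 + W * j); linarith))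
    calc _ ≤ (2 * J / v) * (J * (2 * √v * coll (T v) v)) := by gcongr
      _ = _ := by
          have h2 : √(v : ℝ) * √v = v := Real.mul_self_sqrt hvr.le
          have h3 : 0 < √(v : ℝ) := Real.sqrt_pos.2 hvr
          field_simp
          rw [Real.sq_sqrt hvr.le]
          ring
  have hGr : (J : ℝ) < 2 * G.card := by exact_mod_cast hGc
  have : 4 * (J : ℝ) ^ 2 * ∑ v ∈ Vs W J, coll (T v) v / √v ≤ 4 * J ^ 2 * (1 / 8) := by gcongr
  nlinarith

end Crest.Agent.R019
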