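import Mathlib
import Crest.Agent.R019.StepA
import Crest.Agent.R019.StepB

/-!
The core lemma: with explicit inequalities between the parameters, `a / b` is a short sum of
unit fractions.
-/

namespace Crest.Agent.R019

open Finset

theorem exists_ystar (b W : ℕ) (hW : 0 < W) : ∃ ys : ℕ, ∀ r y : ℕ, Nat.Coprime r b →
    y ≡ ys [MOD W] → b ≤ r * y → Nat.Coprime W (r * y - b) := by
  refine ⟨∏ q ∈ W.primeFactors.filter (fun q => ¬ q ∣ b), q, ?_⟩
  intro r y hrb hy hle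
  apply Nat.Coprime.symm
  apply Nat.coprime_of_dvd
  intro q hq hq1 hqW
  have hy' : y ≡ ∏ q ∈ W.primeFactors.filter (fun q => ¬ q ∣ b), q [MOD q] := hy.of_dvd hqW
  by_cases hqb : q ∣ b
  · have h1 : q ∣ r * y := by
      have := Nat.dvd_add hq1 hqb
      rwa [Nat.sub_add_cancel hle] at this
    rcases (Nat.Prime.dvd_mul hq).1 h1 with h2 | h2
    · exact hq.one_lt.ne' (Nat.eq_one_of_dvd_coprimes hrb h2 hqb)
    · have h3 := (hy'.dvd_iff (dvd_refl q)).1 h2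
      obtain ⟨q', hq', hqq'⟩ := (Prime.dvd_finsetProd_iff hq.prime _).1 h3
      rw [mem_filter] at hq'
      have := (Nat.prime_dvd_prime_iff_eq hq (Nat.prime_of_mem_primeFactors hq'.1)).1 hqq'
      subst this
      exact hq'.2 hqb
  · have h3 : q ∣ ∏ q ∈ W.primeFactors.filter (fun q => ¬ q ∣ b), q :=
      dvd_prod_of_mem _ (mem_filter.2 ⟨Nat.mem_primeFactors.2 ⟨hq, hqW, hW.ne'⟩, hqb⟩)
    have h2 : q ∣ y := (hy'.dvd_iff (dvd_refl q)).2 h3
    have h4 : q ∣ r * y := Dvd.dvd.mul_left h2 r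
    apply hqb
    have := Nat.dvd_sub h4 hq1
    rwa [Nat.sub_sub_self hle] at this

theorem card_not_coprime {b z J : ℕ} (hb : 0 < b) (hz : 0 < z) (hzJ : z ≤ J)
    (hgcd : 8 * (b.primeFactors.filter (fun q => z < q)).card ≤ z) :
    4 * ((range J).filter (fun j => ¬ Nat.Coprime (1 + primorial z * j) b)).card ≤ J := by
  have hsub : (range J).filter (fun j => ¬ Nat.Coprime (1 + primorial z * j) b) ⊆
      (b.primeFactors.filter (fun q => z < q)).biUnion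
        (fun q => (range J).filter (fun j => q ∣ 1 + primorial z * j)) := by
    intro j hj
    rw [mem_filter] at hj
    obtain ⟨q, hq, hq1, hq2⟩ := Nat.Prime.not_coprime_iff_dvd.1 hj.2
    rw [mem_biUnion]
    refine ⟨q, ?_, mem_filter.2 ⟨hj.1, hq1⟩⟩
    rw [mem_filter, Nat.mem_primeFactors]
    refine ⟨⟨hq, hq2, hb.ne'⟩, ?_⟩
    by_contra hle
    push Not at hle
    have h1 : q ∣ primorial z * j := Dvd.dvd.mul_right (hq.dvd_primorial_iff.2 hle) j
    have h2 : q ∣ 1 := (Nat.dvd_add_left h1).1 hq1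
    exact hq.one_lt.ne' (Nat.dvd_one.1 h2)
  have hzr : (0 : ℝ) < z := by exact_mod_cast hz
  have hzJr : (z : ℝ) ≤ J := by exact_mod_cast hzJ
  have h1 : (((range J).filter (fun j => ¬ Nat.Coprime (1 + primorial z * j) b)).card : ℝ) ≤
      ∑ q ∈ b.primeFactors.filter (fun q => z < q), (2 * J / z : ℝ) := by
    have := (card_le_card hsub).trans card_biUnion_le
    calc _ ≤ ((∑ q ∈ b.primeFactors.filter (fun q => z < q),
          ((range J).filter (fun j => q ∣ 1 + primorial z * j)).card : ℕ) : ℝ) := by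
            exact_mod_cast this
      _ ≤ _ := by
        push_cast
        apply sum_le_sum
        intro q hq
        rw [mem_filter, Nat.mem_primeFactors] at hq
        obtain ⟨⟨hq, _, _⟩, hzq⟩ := hq
        have hc : Nat.Coprime (primorial z) q := by
          apply Nat.Coprime.symm
          rw [hq.coprime_iff_not_dvd, hq.dvd_primorial_iff]
          omega
        refine (card_dvd_affine_le hq.pos hc 1 J).trans ?_
        have a1 : (J : ℝ) / q ≤ J / z := by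
          gcongr
        have a2 : (1 : ℝ) ≤ J / z := by
          rw [le_div_iff₀ hzr]; linarith
        rw [mul_div_assoc]
        linarith
  rw [sum_const, nsmul_eq_mul] at h1
  have h2 : (8 * ((b.primeFactors.filter (fun q => z < q)).card : ℝ)) ≤ z := by exact_mod_cast hgcd
  have h3 : ((b.primeFactors.filter (fun q => z < q)).card : ℝ) * (2 * J / z) ≤ J / 4 := by
    rw [← mul_div_assoc, div_le_div_iff₀ hzr (by norm_num)]
    have : (0 : ℝ) ≤ J := by positivity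
    nlinarith
  have h4 : (4 * (((range J).filter
      (fun j => ¬ Nat.Coprime (1 + primorial z * j) b)).card : ℝ)) ≤ J := by linarith
  exact_mod_cast h4

open Classical in
/-- The sum over exact rationals. -/
theorem sum_exact_le (f : ℝ → ℝ) (hf : ∀ α, 0 ≤ f α) {p W J : ℕ} (hp : 0 < p)
    (hW : Nat.Coprime W p) :
    ∑ t ∈ ((range p).erase 0).filter (fun t => ∃ i, 1 ≤ i ∧ i < J ∧ p ∣ W * i * t),
      f ((t : ℝ) / p) ≤
    ∑ v ∈ (Vs W J).filter (fun v => v ∣ p),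
      ∑ u ∈ (range v).filter (fun u => Nat.Coprime u v), f ((u : ℝ) / v) := by
  rw [sum_sigma']
  set Sg := ((Vs W J).filter (fun v => v ∣ p)).sigma
    (fun v => (range v).filter (fun u => Nat.Coprime u v)) with hSg
  have hsub : ((range p).erase 0).filter (fun t => ∃ i, 1 ≤ i ∧ i < J ∧ p ∣ W * i * t) ⊆
      Sg.image (fun x => x.2 * (p / x.1)) := by
    intro t ht
    rw [mem_filter, mem_erase, mem_range] at ht
    obtain ⟨⟨ht0, htp⟩, i, hi1, hiJ, hdvd⟩ := ht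
    have hg : 0 < Nat.gcd t p := Nat.gcd_pos_of_pos_right _ hp
    obtain ⟨u, v, huv, htu, hpv⟩ := Nat.exists_coprime t p
    set g := Nat.gcd t p
    have hv0 : 0 < v := Nat.pos_of_mul_pos_right (hpv ▸ hp)
    have huv' : u < v := by
      rw [htu, hpv] at htp
      exact lt_of_mul_lt_mul_right htp (Nat.zero_le _)
    have hu0 : u ≠ 0 := by
      rintro rfl
      simp at htu
      exact ht0 htu
    have hvp : v ∣ p := ⟨g, hpv⟩
    have h1 : p ∣ i * t := by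
      rw [mul_assoc] at hdvd
      exact hW.symm.dvd_of_dvd_mul_left hdvd
    have h2 : v ∣ i * u := by
      rw [htu, hpv, ← mul_assoc] at h1
      exact Nat.dvd_of_mul_dvd_mul_right hg h1
    have h3 : v ∣ i := huv.symm.dvd_of_dvd_mul_right h2
    have h4 : v ≤ i := Nat.le_of_dvd (by omega) h3
    rw [mem_image]
    refine ⟨⟨v, u⟩, ?_, ?_⟩
    · rw [hSg, mem_sigma, mem_filter, mem_filter, mem_range]
      refine ⟨⟨?_, hvp⟩, huv', huv⟩
      unfold Vs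
      rw [mem_filter, mem_Ioo]
      exact ⟨⟨by simp only; omega, by simp only; omega⟩, Nat.Coprime.coprime_dvd_right hvp hW⟩
    · simp only
      rw [hpv, Nat.mul_div_cancel_left _ hv0, ← htu]
  calc _ ≤ ∑ t ∈ Sg.image (fun x => x.2 * (p / x.1)), f ((t : ℝ) / p) :=
        sum_le_sum_of_subset_of_nonneg hsub (fun _ _ _ => hf _)
    _ ≤ ∑ x ∈ Sg, f (((x.2 * (p / x.1) : ℕ) : ℝ) / p) :=
        sum_image_le_of_nonneg (fun _ _ => hf _)
    _ = ∑ x ∈ Sg, f ((x.2 : ℝ) / x.1) := by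
        apply sum_congr rfl
        rintro ⟨v, u⟩ hx
        rw [hSg, mem_sigma, mem_filter] at hx
        obtain ⟨c, hc⟩ := hx.1.2
        simp only at hc ⊢
        have hv0 : 0 < v := Nat.pos_of_mul_pos_right (hc ▸ hp)
        have hc0 : 0 < c := Nat.pos_of_mul_pos_left (hc ▸ hp)
        congr 1
        rw [hc, Nat.mul_div_cancel_left _ hv0]
        have : (0 : ℝ) < v := by exact_mod_cast hv0
        have : (0 : ℝ) < c := by exact_mod_cast hc0
        push_cast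
        field_simp

theorem prod_le_one4 {a b c d : ℝ} (_ha : 0 ≤ a) (ha1 : a ≤ 1) (hb : 0 ≤ b) (hb1 : b ≤ 1)
    (hc : 0 ≤ c) (hc1 : c ≤ 1) (hd : 0 ≤ d) (hd1 : d ≤ 1) : a * b * c * d ≤ 1 :=
  mul_le_one₀ (mul_le_one₀ (mul_le_one₀ ha1 hb hb1) hc hc1) hd hd1

/-- The product of exponential sums used in the circle method modulo `p`. -/
noncomputable def FF (S D₁ D₂ : Finset ℕ) (A y₁ y : ℕ) (α : ℝ) : ℂ :=
  (psi S ((1 : ℕ) * α) ^ (A + 1 + 1) * psi S (y₁ * α) ^ (A + 1 + 1) *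
    psi S (y * α) ^ (A + 1 + 1) * psi S ((y₁ * y : ℕ) * α) ^ (A + 1 + 1)) *
  (psi D₁ ((1 : ℕ) * α) ^ (1 + 1) * psi D₁ (y₁ * α) ^ (1 + 1) *
    psi D₂ ((1 : ℕ) * α) ^ (1 + 1) * psi D₂ (y₁ * α) ^ (1 + 1))

theorem gen_FF {S D₁ D₂ : Finset ℕ} {P l A y₁ y : ℕ} (hP : 0 < P) (hy₁ : 0 < y₁) (hy : 0 < y)
    (hS : ∀ x ∈ S, 0 < x ∧ SumDiv P l x) (hD₁ : ∀ x ∈ D₁, x ∣ P) (hD₂ : ∀ x ∈ D₂, x ∣ P) :
    Gen (y₁ * y * P) (4 * (A + 2) * l + 8) (FF S D₁ D₂ A y₁ y) := by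
  have hD₁' : ∀ x ∈ D₁, 0 < x ∧ SumDiv P 1 x :=
    fun x hx => ⟨Nat.pos_of_dvd_of_pos (hD₁ x hx) hP, sumDiv_one (hD₁ x hx)⟩
  have hD₂' : ∀ x ∈ D₂, 0 < x ∧ SumDiv P 1 x :=
    fun x hx => ⟨Nat.pos_of_dvd_of_pos (hD₂ x hx) hP, sumDiv_one (hD₂ x hx)⟩
  have d1 : 1 * P ∣ y₁ * y * P := Nat.mul_dvd_mul_right (one_dvd _) _
  have d2 : y₁ * P ∣ y₁ * y * P := Nat.mul_dvd_mul_right (Dvd.intro _ rfl) _
  have d3 : y * P ∣ y₁ * y * P := Nat.mul_dvd_mul_right (Dvd.intro_left _ rfl) _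
  have d4 : (y₁ * y) * P ∣ y₁ * y * P := dvd_rfl
  have g := ((((gen_psi hS one_pos d1).pow (A + 1)).mul ((gen_psi hS hy₁ d2).pow (A + 1))).mul
    ((gen_psi hS hy d3).pow (A + 1))).mul ((gen_psi hS (Nat.mul_pos hy₁ hy) d4).pow (A + 1))
  have g' := ((((gen_psi hD₁' one_pos d1).pow 1).mul ((gen_psi hD₁' hy₁ d2).pow 1)).mul
    ((gen_psi hD₂' one_pos d1).pow 1)).mul ((gen_psi hD₂' hy₁ d2).pow 1)
  have g'' := g.mul g'
  have e : (A + 1 + 1) * l + (A + 1 + 1) * l + (A + 1 + 1) * l + (A + 1 + 1) * l +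
      ((1 + 1) * 1 + (1 + 1) * 1 + (1 + 1) * 1 + (1 + 1) * 1) = 4 * (A + 2) * l + 8 := by ring
  rw [e] at g''
  exact g''

theorem FF_zero {S D₁ D₂ : Finset ℕ} (hS : S.Nonempty) (hD₁ : D₁.Nonempty) (hD₂ : D₂.Nonempty)
    (A y₁ y : ℕ) : FF S D₁ D₂ A y₁ y 0 = 1 := by
  simp [FF, psi_zero hS, psi_zero hD₁, psi_zero hD₂]

theorem norm_FF (S D₁ D₂ : Finset ℕ) (A y₁ y : ℕ) (α : ℝ) :
    ‖FF S D₁ D₂ A y₁ y α‖ =
      (‖psi S α‖ ^ (A + 2) * ‖psi S (y₁ * α)‖ ^ (A + 2) *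
        ‖psi S (y * α)‖ ^ (A + 2) * ‖psi S (y₁ * (y * α))‖ ^ (A + 2)) *
      (‖psi D₁ α‖ ^ 2 * ‖psi D₁ (y₁ * α)‖ ^ 2 * ‖psi D₂ α‖ ^ 2 * ‖psi D₂ (y₁ * α)‖ ^ 2) := by
  simp only [FF, norm_mul, norm_pow, Nat.cast_one, one_mul, Nat.cast_mul, mul_assoc (y₁ : ℝ)]

theorem norm_FF_le_T {S D₁ D₂ T : Finset ℕ} (hT : T = D₁ ∨ T = D₂ ∨ T = S) (A y₁ y : ℕ) (α : ℝ) :
    ‖FF S D₁ D₂ A y₁ y α‖ ≤ ‖psi T α‖ ^ 2 * ‖psi T (y₁ * α)‖ ^ 2 := by
  rw [norm_FF]
  have p1 : ∀ (X : Finset ℕ) (β : ℝ) (n : ℕ), ‖psi X β‖ ^ n ≤ 1 :=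
    fun X β n => pow_le_one₀ (norm_nonneg _) (norm_psi_le _ _)
  have p0 : ∀ (X : Finset ℕ) (β : ℝ) (n : ℕ), 0 ≤ ‖psi X β‖ ^ n := fun X β n => by positivity
  have hA := prod_le_one4 (p0 S α (A + 2)) (p1 _ _ _) (p0 S (y₁ * α) (A + 2)) (p1 _ _ _)
    (p0 S (y * α) (A + 2)) (p1 _ _ _) (p0 S (y₁ * (y * α)) (A + 2)) (p1 _ _ _)
  have hB := prod_le_one4 (p0 D₁ α 2) (p1 _ _ _) (p0 D₁ (y₁ * α) 2) (p1 _ _ _)
    (p0 D₂ α 2) (p1 _ _ _) (p0 D₂ (y₁ * α) 2) (p1 _ _ _)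
  rcases hT with rfl | rfl | rfl
  · refine (mul_le_of_le_one_left (by positivity) hA).trans ?_
    rw [mul_assoc]
    exact mul_le_of_le_one_right (by positivity) (mul_le_one₀ (p1 _ _ _) (p0 _ _ _) (p1 _ _ _))
  · refine (mul_le_of_le_one_left (by positivity) hA).trans ?_
    rw [mul_assoc]
    exact mul_le_of_le_one_left (by positivity) (mul_le_one₀ (p1 _ _ _) (p0 _ _ _) (p1 _ _ _))
  · refine (mul_le_of_le_one_right (by positivity) hB).trans ?_
    rw [mul_assoc]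
    refine (mul_le_of_le_one_right (by positivity)
      (mul_le_one₀ (p1 _ _ _) (p0 _ _ _) (p1 _ _ _))).trans ?_
    apply mul_le_mul _ _ (p0 _ _ _) (p0 _ _ _)
    · exact pow_le_pow_of_le_one (norm_nonneg _) (norm_psi_le _ _) (by omega)
    · exact pow_le_pow_of_le_one (norm_nonneg _) (norm_psi_le _ _) (by omega)

theorem norm_FF_le_minor {S D₁ D₂ : Finset ℕ} (A y₁ y : ℕ) (α η : ℝ)
    (h : ‖psi S α‖ < η ∨ ‖psi S (y₁ * α)‖ < η ∨ ‖psi S (y * α)‖ < η ∨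
      ‖psi S (y₁ * (y * α))‖ < η) :
    ‖FF S D₁ D₂ A y₁ y α‖ ≤ η ^ A * ‖psi S α‖ ^ 2 := by
  rw [norm_FF]
  have p1 : ∀ (X : Finset ℕ) (β : ℝ) (n : ℕ), ‖psi X β‖ ^ n ≤ 1 :=
    fun X β n => pow_le_one₀ (norm_nonneg _) (norm_psi_le _ _)
  have p0 : ∀ (X : Finset ℕ) (β : ℝ) (n : ℕ), 0 ≤ ‖psi X β‖ ^ n := fun X β n => by positivity
  have hB := prod_le_one4 (p0 D₁ α 2) (p1 _ _ _) (p0 D₁ (y₁ * α) 2) (p1 _ _ _)
    (p0 D₂ α 2) (p1 _ _ _) (p0 D₂ (y₁ * α) 2) (p1 _ _ _)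
  refine (mul_le_of_le_one_right (by positivity) hB).trans ?_
  have q1 : ∀ β, ‖psi S β‖ < η → ‖psi S β‖ ^ A ≤ η ^ A := fun β hβ =>
    pow_le_pow_left₀ (norm_nonneg _) hβ.le _
  have q2 : ∀ β, ‖psi S β‖ < η → ‖psi S β‖ ^ (A + 2) ≤ η ^ A := fun β hβ =>
    (pow_le_pow_of_le_one (norm_nonneg _) (norm_psi_le _ _) (by omega)).trans (q1 β hβ)
  have q3 : ‖psi S α‖ ^ (A + 2) ≤ ‖psi S α‖ ^ 2 :=
    pow_le_pow_of_le_one (norm_nonneg _) (norm_psi_le _ _) (by omega)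
  set a := ‖psi S α‖ ^ (A + 2) with ha
  set b := ‖psi S (y₁ * α)‖ ^ (A + 2) with hb
  set c := ‖psi S (y * α)‖ ^ (A + 2) with hc
  set d := ‖psi S (y₁ * (y * α))‖ ^ (A + 2) with hd
  have a0 : 0 ≤ a := p0 _ _ _
  have b0 : 0 ≤ b := p0 _ _ _
  have c0 : 0 ≤ c := p0 _ _ _
  have d0 : 0 ≤ d := p0 _ _ _
  have b1 : b ≤ 1 := p1 _ _ _
  have c1 : c ≤ 1 := p1 _ _ _
  have d1 : d ≤ 1 := p1 _ _ _
  have s0 : 0 ≤ ‖psi S α‖ ^ 2 := p0 _ _ _
  rcases h with h | h | h | h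
  · calc a * b * c * d ≤ a * 1 * 1 * 1 := by gcongr
      _ = ‖psi S α‖ ^ A * ‖psi S α‖ ^ 2 := by rw [ha]; ring
      _ ≤ _ := by gcongr
  · have : b ≤ η ^ A := q2 _ h
    have h0 : 0 ≤ η ^ A := le_trans b0 this
    calc a * b * c * d ≤ ‖psi S α‖ ^ 2 * η ^ A * 1 * 1 := by gcongr
      _ = _ := by ring
  · have : c ≤ η ^ A := q2 _ h
    have h0 : 0 ≤ η ^ A := le_trans c0 this
    calc a * b * c * d ≤ ‖psi S α‖ ^ 2 * 1 * η ^ A * 1 := by gcongr
      _ = _ := by ring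
  · have : d ≤ η ^ A := q2 _ h
    calc a * b * c * d ≤ ‖psi S α‖ ^ 2 * 1 * 1 * η ^ A := by gcongr
      _ = _ := by ring

theorem energy {S D₁ D₂ : Finset ℕ} (T : ℕ → Finset ℕ) {P E W J Q₀ A y₁ y p : ℕ}
    (hS : ∀ x ∈ S, x ≤ P) (hT : ∀ v, T v = D₁ ∨ T v = D₂ ∨ T v = S) (hE : 0 < E)
    (hPp : P < p) (hQ : 0 < Q₀) (hW : Nat.Coprime W p) (hA : GoodA S E W J Q₀ y₁)
    (c1 : 3 * J * (W * J) * p < y * Q₀) (c2 : 6 * J * (W * J) * y < Q₀)
    (cmin : 2 * p ≤ S.card * E ^ A)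
    (hB : ∑ v ∈ (Vs W J).filter (fun v => v ∣ p), Ev (T v) v y₁ < 1 / 2) :
    ∑ t ∈ (range p).erase 0, ‖FF S D₁ D₂ A y₁ y ((t : ℝ) / p)‖ < 1 := by
  classical
  have hp : 0 < p := by omega
  have hEr : (0 : ℝ) < E := by exact_mod_cast hE
  rw [← sum_filter_add_sum_filter_not _ (fun t => ∃ i, 1 ≤ i ∧ i < J ∧ p ∣ W * i * t)]
  have h1 : ∑ t ∈ ((range p).erase 0).filter (fun t => ∃ i, 1 ≤ i ∧ i < J ∧ p ∣ W * i * t),
      ‖FF S D₁ D₂ A y₁ y ((t : ℝ) / p)‖ < 1 / 2 := by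
    refine lt_of_le_of_lt ?_ hB
    refine (sum_exact_le (fun α => ‖FF S D₁ D₂ A y₁ y α‖) (fun _ => norm_nonneg _) hp hW).trans ?_
    apply sum_le_sum
    intro v _
    unfold Ev
    apply sum_le_sum
    intro u _
    exact norm_FF_le_T (hT v) A y₁ y _
  have h2 : ∑ t ∈ ((range p).erase 0).filter (fun t => ¬ ∃ i, 1 ≤ i ∧ i < J ∧ p ∣ W * i * t),
      ‖FF S D₁ D₂ A y₁ y ((t : ℝ) / p)‖ ≤ 1 / 2 := by
    calc _ ≤ ∑ t ∈ ((range p).erase 0).filter (fun t => ¬ ∃ i, 1 ≤ i ∧ i < J ∧ p ∣ W * i * t),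
          (1 / (E : ℝ)) ^ A * ‖psi S ((t : ℝ) / p)‖ ^ 2 := by
          apply sum_le_sum
          intro t ht
          have ht2 := (mem_filter.1 ht).2
          apply norm_FF_le_minor
          by_contra hcon
          push Not at hcon
          obtain ⟨g1, g2, g3, g4⟩ := hcon
          exact ht2 (lattice hp hQ (hA _ g1 g2) (hA _ g3 g4) c1 c2)
      _ ≤ ∑ t ∈ range p, (1 / (E : ℝ)) ^ A * ‖psi S ((t : ℝ) / p)‖ ^ 2 :=
          sum_le_sum_of_subset_of_nonneg ((filter_subset _ _).trans (erase_subset _ _))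
            (fun _ _ _ => by positivity)
      _ = (1 / (E : ℝ)) ^ A * (p * (1 / S.card)) := by
          rw [← mul_sum, parseval S p hp, coll_eq_of_lt hS hPp]
      _ ≤ 1 / 2 := by
          have hc : ((2 * p : ℕ) : ℝ) ≤ ((S.card * E ^ A : ℕ) : ℝ) := by exact_mod_cast cmin
          push_cast at hc
          have hSc : (0 : ℝ) < S.card := by
            rcases Nat.eq_zero_or_pos S.card with h | h
            · rw [h] at cmin; omega
            · exact_mod_cast h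
          have hEA : (0 : ℝ) < (E : ℝ) ^ A := by positivity
          rw [one_div_pow, mul_one_div, div_mul_div_comm, one_mul, div_le_div_iff₀ (by positivity)
            (by norm_num)]
          linarith
  linarith

theorem core {a b P l E J z A : ℕ} {S D₁ D₂ : Finset ℕ} (T : ℕ → Finset ℕ)
    (ha : 0 < a) (hb : 0 < b) (hab : Nat.Coprime a b) (hP : 0 < P) (hPb : Nat.Coprime P b)
    (hS : ∀ x ∈ S, 0 < x ∧ SumDiv P l x ∧ x ≤ P) (hSne : S.Nonempty)
    (hD₁ : ∀ x ∈ D₁, x ∣ P) (hD₁ne : D₁.Nonempty) (hD₂ : ∀ x ∈ D₂, x ∣ P) (hD₂ne : D₂.Nonempty)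
    (hT : ∀ v, T v = D₁ ∨ T v = D₂ ∨ T v = S) (hE : 0 < E) (hz : 0 < z) (hzJ : z ≤ J)
    (hΓ : 4 * (52 * (E : ℝ) ^ 3 * P / S.card) ^ 2 < J)
    (hgcd : 8 * (b.primeFactors.filter (fun q => z < q)).card ≤ z)
    (c1 : 9 * J * (primorial z * J) ^ 4 * a ^ 2 * P ≤ b)
    (c2 : 12 * J * (primorial z * J) * b ≤ P ^ 2)
    (c3 : 36 * J * (primorial z * J) ^ 2 ≤ P)
    (cmin : 6 * a * P * (primorial z * J) ^ 2 ≤ S.card * E ^ A)
    (hκ : ∑ v ∈ Vs (primorial z) J, coll (T v) v / √v ≤ 1 / 8) :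
    SumUF (4 * (A + 2) * l + 8 + 1) ((a : ℚ) / b) := by
  classical
  set W := primorial z with hWdef
  have hW : 0 < W := primorial_pos z
  have hJ : 0 < J := by omega
  set Y := W * J with hY
  have hY0 : 0 < Y := Nat.mul_pos hW hJ
  have hWY : W ≤ Y := Nat.le_mul_of_pos_right _ hJ
  set Q₀ := 13 * E * P with hQ₀
  have hPQ : P < Q₀ := by nlinarith
  have hS' : ∀ x ∈ S, x ≤ P := fun x hx => (hS x hx).2.2
  -- the good values of j
  set G := (range J).filter (fun j => GoodA S E W J Q₀ (1 + W * j) ∧ Nat.Coprime (1 + W * j) b)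
    with hG
  have hGc : J < 2 * G.card := by
    have h1 := card_not_goodA (J := J) hS' hE hP hW (le_refl Q₀)
    have h2 := card_Gam hS' hE hPQ
    have h3 := card_not_coprime hb hz hzJ hgcd
    have h4 : 4 * (Gam S E Q₀).card ^ 2 < J := by
      have e : (4 * (E : ℝ) ^ 2 * Q₀ / S.card) = 52 * (E : ℝ) ^ 3 * P / S.card := by
        rw [hQ₀]; push_cast; ring
      rw [e] at h2
      have : (4 * ((Gam S E Q₀).card : ℝ) ^ 2) < J := by
        refine lt_of_le_of_lt ?_ hΓ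
        gcongr
      exact_mod_cast this
    have h5 : range J ⊆ G ∪ ((range J).filter (fun j => ¬ GoodA S E W J Q₀ (1 + W * j)) ∪
        (range J).filter (fun j => ¬ Nat.Coprime (1 + W * j) b)) := by
      intro j hj
      simp only [hG, mem_union, mem_filter]
      tauto
    have h6 := (card_le_card h5).trans ((card_union_le _ _).trans
      (Nat.add_le_add_left (card_union_le _ _) _))
    rw [card_range] at h6
    rw [← hWdef] at h3
    omega
  obtain ⟨ys, hys⟩ := exists_ystar b W hW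
  obtain ⟨r, hr⟩ : ∃ r : ℕ → ℕ, ∀ j, r j = a * P * (1 + W * j) := ⟨_, fun _ => rfl⟩
  have hr0 : ∀ j, 0 < r j := fun j => by rw [hr]; positivity
  obtain ⟨y₀, hy₀, hy₀', hy₀''⟩ : ∃ y₀ : ℕ → ℕ, (∀ j, b / r j + 1 < y₀ j) ∧
      (∀ j, y₀ j ≤ b / r j + 1 + 2 * W) ∧ ∀ j h, y₀ j + W * h ≡ ys [MOD W] := by
    refine ⟨fun j => ys % W + W * ((b / r j + 1) / W + 1), fun j => ?_, fun j => ?_, fun j h => ?_⟩
    · have := Nat.lt_mul_div_succ (b / r j + 1) hW
      exact lt_of_lt_of_le this (Nat.le_add_left _ _)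
    · have h1 := Nat.mul_div_le (b / r j + 1) W
      have h2 := Nat.mod_lt ys hW
      simp only [mul_add, mul_one]
      omega
    · simp only
      rw [add_assoc, ← mul_add]
      exact ((Nat.mod_modEq ys W).add (Nat.modEq_zero_iff_dvd.2 (Dvd.intro _ rfl))).trans
        (by rw [add_zero])
  have hry : ∀ j, b + r j < r j * y₀ j := fun j => by
    have h1 := Nat.lt_mul_div_succ b (hr0 j)
    have h2 : r j * (b / r j + 1 + 1) ≤ r j * y₀ j := Nat.mul_le_mul_left _ (hy₀ j)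
    nlinarith
  have hrb : ∀ j ∈ G, Nat.Coprime (r j) b := by
    intro j hj
    rw [hr]
    exact Nat.Coprime.mul_left (Nat.Coprime.mul_left hab hPb) (mem_filter.1 hj).2.2
  have hpeq : ∀ j h, r j * y₀ j - b + r j * W * h = r j * (y₀ j + W * h) - b := by
    intro j h
    have := hry j
    rw [mul_add, ← mul_assoc]
    omega
  obtain ⟨j, hj, h, hh, hB⟩ := stepB T W J G (filter_subset _ _) hGc (fun j => r j * y₀ j - b) r
    (by
      intro j hj h
      rw [hpeq]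
      have hle : b ≤ r j * (y₀ j + W * h) := by
        have := hry j
        rw [mul_add]
        omega
      apply Nat.coprime_of_dvd
      intro q hq hq1 hq2
      have h4 : q ∣ r j * (y₀ j + W * h) := Dvd.dvd.mul_right hq1 _
      have h5 := Nat.dvd_sub h4 hq2
      rw [Nat.sub_sub_self hle] at h5
      exact hq.one_lt.ne' (Nat.eq_one_of_dvd_coprimes (hrb j hj) hq1 h5))
    hκ
  simp only [hpeq] at hB
  have hAj := (mem_filter.1 hj).2.1
  have hrj := hr j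
  have hymod := hy₀'' j h
  obtain ⟨y₁, hy₁⟩ : ∃ y₁, y₁ = 1 + W * j := ⟨_, rfl⟩
  obtain ⟨y, hy⟩ : ∃ y, y = y₀ j + W * h := ⟨_, rfl⟩
  rw [← hy₁] at hAj hrj hB
  rw [← hy] at hymod hB
  obtain ⟨p, hp⟩ : ∃ p, p = r j * y - b := ⟨_, rfl⟩
  rw [← hp] at hB
  clear_value Y
  have hjJ : j < J := mem_range.1 (mem_filter.1 hj).1
  have hy₁Y : y₁ ≤ Y := by
    have : W * (j + 1) ≤ W * J := Nat.mul_le_mul_left _ hjJ
    nlinarith
  have hPr : P ≤ r j := by
    rw [hrj]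
    calc P = 1 * P * 1 := by ring
      _ ≤ a * P * y₁ := by gcongr <;> omega
  have hrY : r j ≤ a * P * Y := by rw [hrj]; gcongr
  have hry' : b + r j < r j * y := by
    have := hry j
    rw [hy, mul_add]
    omega
  have hyle : y ≤ b / r j + 3 * Y := by
    have h1 := hy₀' j
    have : W * (h + 1) ≤ W * J := Nat.mul_le_mul_left _ hh
    nlinarith
  have hple : p ≤ 3 * r j * Y := by
    have h1 : r j * y ≤ r j * (b / r j + 3 * Y) := Nat.mul_le_mul_left _ hyle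
    have h2 := Nat.mul_div_le b (r j)
    rw [mul_add] at h1
    have : r j * (3 * Y) = 3 * r j * Y := by ring
    omega
  have hPp : P < p := by omega
  have hy0 : 0 < y := by
    rw [hy]
    exact Nat.add_pos_left (lt_of_le_of_lt (Nat.zero_le _) (hy₀ j)) _
  have hy₁0 : 0 < y₁ := by omega
  have hWp : Nat.Coprime W p := by
    rw [hp]
    exact hys _ _ (hrb j hj) hymod (by omega)
  have hen := energy (D₁ := D₁) (D₂ := D₂) (A := A) (y := y) T hS' hT hE hPp (by omega) hWp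
    hAj
    (by
      -- c1
      rw [← hY]
      have h1 : 9 * J * Y ^ 3 * a < y := by
        have h2 : (9 * J * Y ^ 3 * a) * (a * P * Y) < y * (a * P * Y) := by
          calc (9 * J * Y ^ 3 * a) * (a * P * Y) = 9 * J * Y ^ 4 * a ^ 2 * P := by ring
            _ ≤ b := c1
            _ < r j * y := by omega
            _ ≤ (a * P * Y) * y := Nat.mul_le_mul_right _ hrY
            _ = _ := by ring
        exact lt_of_mul_lt_mul_right h2 (Nat.zero_le _)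
      calc 3 * J * Y * p ≤ 3 * J * Y * (3 * (a * P * Y) * Y) := by
            gcongr
            exact hple.trans (by gcongr)
        _ = (9 * J * Y ^ 3 * a) * P := by ring
        _ < y * P := Nat.mul_lt_mul_of_pos_right h1 hP
        _ ≤ y * Q₀ := Nat.mul_le_mul_left _ hPQ.le)
    (by
      -- c2
      rw [← hY]
      have h1 : b / r j ≤ b / P := Nat.div_le_div_left hPr hP
      have h2 : 12 * J * Y * (b / P) ≤ P := by
        have h3 : 12 * J * Y * (b / P) * P ≤ P * P := by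
          calc 12 * J * Y * (b / P) * P = 12 * J * Y * (P * (b / P)) := by ring
            _ ≤ 12 * J * Y * b := Nat.mul_le_mul_left _ (Nat.mul_div_le b P)
            _ ≤ P ^ 2 := c2
            _ = P * P := by ring
        exact Nat.le_of_mul_le_mul_right h3 hP
      have h4 : 6 * J * Y * y ≤ 6 * J * Y * (b / P + 3 * Y) := by
        gcongr
        omega
      have h5 : 2 * (6 * J * Y * (b / P + 3 * Y)) = 12 * J * Y * (b / P) + 36 * J * Y ^ 2 := by ring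
      omega)
    (by
      calc 2 * p ≤ 2 * (3 * (a * P * Y) * Y) := by
            gcongr
            exact hple.trans (by gcongr)
        _ = 6 * a * P * Y ^ 2 := by ring
        _ ≤ _ := cmin)
    hB
  have hgen := gen_FF (A := A) hP (by omega : 0 < y₁) hy0
    (fun x hx => ⟨(hS x hx).1, (hS x hx).2.1⟩) hD₁ hD₂
  obtain ⟨x, hx0, hx1, hx2⟩ := hgen.exists_dvd (by omega : 0 < p)
    (FF_zero hSne hD₁ne hD₂ne A y₁ y) hen
  set n := y₁ * y * P with hn
  have hn0 : 0 < n := by positivity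
  have h1 := (hx1.of_dvd (Dvd.intro_left b rfl)).sumUF (Nat.mul_pos hb hn0) hx0 hx2
  have h2 := h1.cons hn0
  have e : (a : ℚ) / b = 1 / (n : ℚ) + (p : ℚ) / ((b * n : ℕ) : ℚ) := by
    have hbq : (0 : ℚ) < b := by exact_mod_cast hb
    have hnq : (0 : ℚ) < n := by exact_mod_cast hn0
    have e1 : r j * y = a * n := by rw [hrj, hn]; ring
    rw [hp, Nat.cast_sub (by omega), e1]
    push_cast
    field_simp
    ring
  rw [e]
  exact h2

end Crest.Agent.R019
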