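import Mathlib
import Crest.Agent.R019.StepB

/-!
Rankin-type bound for weighted sums of collision probabilities over rough moduli.
-/

namespace Crest.Agent.R019

open Finset

theorem divisor_sum (g : ℕ → ℝ) (θ : ℝ) (hθ : 0 ≤ θ) (hg0 : ∀ v, 0 ≤ g v) (hg1 : g 1 ≤ 1)
    (hg : ∀ q v, q.Prime → g (q * v) ≤ θ * g v) :
    ∀ N : ℕ, 0 < N → ∑ v ∈ N.divisors, g v ≤ (1 + θ) ^ (Nat.log 2 N) := by
  intro N
  induction N using induction_on_primes with
  | zero => intro h; omega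
  | one => intro _; simpa using hg1
  | prime_mul q N hq ih =>
    intro h
    have hN : 0 < N := Nat.pos_of_mul_pos_left h
    have ih' := ih hN
    have hsub : (q * N).divisors ⊆ N.divisors ∪ N.divisors.image (fun v => q * v) := by
      intro v hv
      rw [Nat.mem_divisors] at hv
      rw [mem_union]
      by_cases hqv : q ∣ v
      · right
        obtain ⟨w, rfl⟩ := hqv
        exact mem_image.2 ⟨w, Nat.mem_divisors.2
          ⟨Nat.dvd_of_mul_dvd_mul_left hq.pos hv.1, hN.ne'⟩, rfl⟩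
      · left
        exact Nat.mem_divisors.2
          ⟨(Nat.Coprime.symm (hq.coprime_iff_not_dvd.2 hqv)).dvd_of_dvd_mul_left hv.1, hN.ne'⟩
    have h1 : ∑ v ∈ N.divisors.image (fun v => q * v), g v ≤ θ * ∑ v ∈ N.divisors, g v := by
      refine (sum_image_le_of_nonneg (fun _ _ => hg0 _)).trans ?_
      rw [mul_sum]
      exact sum_le_sum (fun v _ => hg q v hq)
    have h2 : ∑ v ∈ N.divisors ∪ N.divisors.image (fun v => q * v), g v ≤
        ∑ v ∈ N.divisors, g v + ∑ v ∈ N.divisors.image (fun v => q * v), g v := by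
      rw [← sum_union_inter]
      have : 0 ≤ ∑ v ∈ N.divisors ∩ N.divisors.image (fun v => q * v), g v :=
        sum_nonneg (fun _ _ => hg0 _)
      linarith
    have h3 := sum_le_sum_of_subset_of_nonneg hsub (fun v _ _ => hg0 v)
    have h4 : Nat.log 2 N + 1 ≤ Nat.log 2 (q * N) := by
      rw [← Nat.log_mul_base (by norm_num) hN.ne']
      apply Nat.log_mono_right
      rw [mul_comm q N]
      exact Nat.mul_le_mul_left _ hq.two_le
    calc _ ≤ (1 + θ) * ∑ v ∈ N.divisors, g v := by linarith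
      _ ≤ (1 + θ) * (1 + θ) ^ (Nat.log 2 N) := by gcongr
      _ = (1 + θ) ^ (Nat.log 2 N + 1) := by ring
      _ ≤ _ := pow_le_pow_right₀ (by linarith) h4

/-- Weight supported on integers free of primes `≤ z`. -/
noncomputable def rwt (z : ℕ) (σ : ℝ) (v : ℕ) : ℝ :=
  if Nat.Coprime (primorial z) v then (v : ℝ) ^ (-σ) else 0

theorem rwt_nonneg (z : ℕ) (σ : ℝ) (v : ℕ) : 0 ≤ rwt z σ v := by
  unfold rwt
  split_ifs
  · positivity
  · exact le_rfl

theorem rwt_one (z : ℕ) (σ : ℝ) : rwt z σ 1 = 1 := by simp [rwt]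

theorem rough_sum {z : ℕ} (hz : 0 < z) {σ : ℝ} (hσ : 0 ≤ σ) {N n : ℕ} (hN : 0 < N)
    (hn : N ≤ 2 ^ n) : ∑ v ∈ N.divisors, rwt z σ v ≤ (1 + (z : ℝ) ^ (-σ)) ^ n := by
  have hθ : (0 : ℝ) ≤ (z : ℝ) ^ (-σ) := by positivity
  refine (divisor_sum (rwt z σ) _ hθ (rwt_nonneg z σ) (rwt_one z σ).le ?_ N hN).trans ?_
  · intro q v hq
    by_cases h : Nat.Coprime (primorial z) (q * v)
    · have h1 : Nat.Coprime (primorial z) q := Nat.Coprime.coprime_mul_right_right h
      have h2 : Nat.Coprime (primorial z) v := Nat.Coprime.coprime_mul_left_right h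
      have h3 : z ≤ q := by
        have := hq.coprime_iff_not_dvd.1 h1.symm
        rw [hq.dvd_primorial_iff] at this
        omega
      unfold rwt
      rw [if_pos h, if_pos h2, Nat.cast_mul, Real.mul_rpow (by positivity) (by positivity)]
      apply mul_le_mul_of_nonneg_right _ (by positivity)
      apply Real.rpow_le_rpow_of_nonpos (by exact_mod_cast hz) (by exact_mod_cast h3) (by linarith)
    · have : rwt z σ (q * v) = 0 := by unfold rwt; rw [if_neg h]
      rw [this]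
      exact mul_nonneg hθ (rwt_nonneg _ _ _)
  · apply pow_le_pow_right₀ (by linarith)
    calc Nat.log 2 N ≤ Nat.log 2 (2 ^ n) := Nat.log_mono_right hn
      _ = n := Nat.log_pow (by norm_num) n

theorem scale_bound {T : Finset ℕ} {X : ℕ} (hT : ∀ x ∈ T, x ≤ X) (hne : T.Nonempty)
    (V : Finset ℕ) (w : ℕ → ℝ) (hw1 : ∀ v ∈ V, w v ≤ 1) (B : ℝ) (hB0 : 0 ≤ B)
    (hB : ∀ N, 0 < N → N ≤ X → ∑ v ∈ V.filter (fun v => v ∣ N), w v ≤ B) :
    ∑ v ∈ V, coll T v * w v ≤ V.card / T.card + B := by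
  have hc : (0 : ℝ) < T.card := by exact_mod_cast hne.card_pos
  have e1 : ∀ v, coll T v * w v =
      (∑ z ∈ T ×ˢ T, if (v : ℤ) ∣ (z.1 : ℤ) - z.2 then w v else 0) / (T.card : ℝ) ^ 2 := by
    intro v
    unfold coll
    rw [← sum_filter, sum_const, nsmul_eq_mul]
    ring
  simp_rw [e1]
  rw [← sum_div, sum_comm, div_le_iff₀ (by positivity)]
  have e2 : ∀ z ∈ T ×ˢ T, (∑ v ∈ V, if (v : ℤ) ∣ (z.1 : ℤ) - z.2 then w v else 0) ≤
      (if z.1 = z.2 then (V.card : ℝ) else 0) + B := by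
    rintro ⟨x, y⟩ hz
    rw [mem_product] at hz
    simp only at hz ⊢
    split_ifs with h
    · subst h
      simp only [sub_self, dvd_zero, if_true]
      have : ∑ v ∈ V, w v ≤ ∑ _v ∈ V, (1 : ℝ) := sum_le_sum hw1
      simp only [sum_const, nsmul_eq_mul, mul_one] at this
      linarith
    · have h1 := hT x hz.1
      have h2 := hT y hz.2
      have h3 := hB ((x : ℤ) - y).natAbs (by omega) (by omega)
      rw [← sum_filter, zero_add]
      convert h3 using 2
      apply filter_congr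
      intro v _
      exact Int.natCast_dvd
  refine (sum_le_sum e2).trans ?_
  rw [sum_add_distrib, sum_const, card_product, ← sum_filter, sum_const]
  have : ((T ×ˢ T).filter (fun z => z.1 = z.2)).card = T.card := by
    rw [← diag_card (s := T)]
    apply congrArg
    ext ⟨x, y⟩
    simp only [mem_filter, mem_product, mem_diag]
    constructor
    · rintro ⟨⟨h1, _⟩, h3⟩
      exact ⟨h1, h3⟩
    · rintro ⟨h1, rfl⟩
      exact ⟨⟨h1, h1⟩, rfl⟩
  rw [this]
  simp only [nsmul_eq_mul, Nat.cast_mul]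
  apply le_of_eq
  field_simp

theorem one_div_sqrt_eq (v : ℕ) : 1 / √(v : ℝ) = (v : ℝ) ^ (-(1 / 2 : ℝ)) := by
  rw [Real.sqrt_eq_rpow, Real.rpow_neg (by positivity), one_div]

theorem one_div_sqrt_le_one {v : ℕ} (hv : 1 ≤ v) : 1 / √(v : ℝ) ≤ 1 := by
  apply div_le_one_of_le₀ _ (Real.sqrt_nonneg _)
  rw [Real.one_le_sqrt]
  exact_mod_cast hv

theorem scale_low {T : Finset ℕ} {n z : ℕ} (hz : 0 < z) (hT : ∀ x ∈ T, x ≤ 2 ^ n)
    (hne : T.Nonempty) (V : Finset ℕ) (hV : ∀ v ∈ V, 1 < v ∧ Nat.Coprime (primorial z) v) :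
    ∑ v ∈ V, coll T v / √v ≤ V.card / T.card + ((1 + (z : ℝ) ^ (-(1 / 2 : ℝ))) ^ n - 1) := by
  simp_rw [div_eq_mul_one_div (coll T _)]
  apply scale_bound hT hne V (fun v => 1 / √(v : ℝ))
    (fun v hv => one_div_sqrt_le_one (hV v hv).1.le)
  · have : (1 : ℝ) ≤ (1 + (z : ℝ) ^ (-(1 / 2 : ℝ))) ^ n :=
      one_le_pow₀ (by have : (0 : ℝ) ≤ (z : ℝ) ^ (-(1 / 2 : ℝ)) := by positivity
                      linarith)
    linarith
  · intro N hN hN2
    have h1 := rough_sum hz (σ := 1 / 2) (by norm_num) hN hN2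
    rw [← add_sum_erase _ _ (Nat.one_mem_divisors.2 hN.ne'), rwt_one] at h1
    have h2 : ∑ v ∈ V.filter (fun v => v ∣ N), 1 / √(v : ℝ) ≤
        ∑ v ∈ N.divisors.erase 1, rwt z (1 / 2) v := by
      calc _ = ∑ v ∈ V.filter (fun v => v ∣ N), rwt z (1 / 2) v := by
            apply sum_congr rfl
            intro v hv
            unfold rwt
            rw [if_pos (hV v (mem_filter.1 hv).1).2, one_div_sqrt_eq]
        _ ≤ _ := by
            apply sum_le_sum_of_subset_of_nonneg _ (fun _ _ _ => rwt_nonneg _ _ _)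
            intro v hv
            rw [mem_filter] at hv
            exact mem_erase.2 ⟨(hV v hv.1).1.ne', Nat.mem_divisors.2 ⟨hv.2, hN.ne'⟩⟩
    linarith

theorem scale_high {T : Finset ℕ} {n z w : ℕ} (hz : 0 < z) (hT : ∀ x ∈ T, x ≤ 2 ^ n)
    (hne : T.Nonempty) (V : Finset ℕ)
    (hV : ∀ v ∈ V, 2 ^ (6 * w) ≤ v ∧ Nat.Coprime (primorial z) v) :
    ∑ v ∈ V, coll T v / √v ≤
      V.card / T.card + (1 / 2) ^ w * (1 + (z : ℝ) ^ (-(1 / 3 : ℝ))) ^ n := by
  simp_rw [div_eq_mul_one_div (coll T _)]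
  apply scale_bound hT hne V (fun v => 1 / √(v : ℝ))
    (fun v hv => one_div_sqrt_le_one (le_trans Nat.one_le_two_pow (hV v hv).1))
  · positivity
  · intro N hN hN2
    have h1 := rough_sum hz (σ := 1 / 3) (by norm_num) hN hN2
    calc _ ≤ ∑ v ∈ V.filter (fun v => v ∣ N), (1 / 2) ^ w * rwt z (1 / 3) v := by
            apply sum_le_sum
            intro v hv
            obtain ⟨hv1, hv2⟩ := hV v (mem_filter.1 hv).1
            have hv0 : (0 : ℝ) < v := by
              exact_mod_cast lt_of_lt_of_le (by positivity) hv1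
            unfold rwt
            rw [if_pos hv2, one_div_sqrt_eq]
            have e : (v : ℝ) ^ (-(1 / 2 : ℝ)) = (v : ℝ) ^ (-(1 / 6 : ℝ)) * (v : ℝ) ^ (-(1 / 3 : ℝ)) := by
              rw [← Real.rpow_add hv0]
              norm_num
            rw [e]
            apply mul_le_mul_of_nonneg_right _ (by positivity)
            calc (v : ℝ) ^ (-(1 / 6 : ℝ)) ≤ ((2 ^ (6 * w) : ℕ) : ℝ) ^ (-(1 / 6 : ℝ)) :=
                  Real.rpow_le_rpow_of_nonpos (by positivity) (by exact_mod_cast hv1) (by norm_num)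
              _ = (1 / 2) ^ w := by
                  push_cast
                  rw [← Real.rpow_natCast, ← Real.rpow_mul (by norm_num), one_div (2 : ℝ), inv_pow,
                    ← Real.rpow_natCast, ← Real.rpow_neg (by norm_num)]
                  congr 1
                  push_cast
                  ring
      _ = (1 / 2) ^ w * ∑ v ∈ V.filter (fun v => v ∣ N), rwt z (1 / 3) v := by rw [mul_sum]
      _ ≤ (1 / 2) ^ w * ∑ v ∈ N.divisors, rwt z (1 / 3) v := by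
            apply mul_le_mul_of_nonneg_left _ (by positivity)
            apply sum_le_sum_of_subset_of_nonneg _ (fun _ _ _ => rwt_nonneg _ _ _)
            intro v hv
            rw [mem_filter] at hv
            exact Nat.mem_divisors.2 ⟨hv.2, hN.ne'⟩
      _ ≤ _ := by gcongr

theorem kappa {D₁ D₂ S : Finset ℕ} {n₁ n₂ n₃ w₁ w₂ z J : ℕ} (hz : 0 < z)
    (h₁ : ∀ x ∈ D₁, x ≤ 2 ^ n₁) (h₂ : ∀ x ∈ D₂, x ≤ 2 ^ n₂) (h₃ : ∀ x ∈ S, x ≤ 2 ^ n₃)
    (c₁ : 48 * 2 ^ (6 * w₁) ≤ D₁.card) (c₂ : 48 * 2 ^ (6 * w₂) ≤ D₂.card)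
    (c₃ : 48 * J ≤ S.card) (hS : S.Nonempty)
    (r₁ : (1 + (z : ℝ) ^ (-(1 / 2 : ℝ))) ^ n₁ - 1 ≤ 1 / 48)
    (r₂ : (1 / 2) ^ w₁ * (1 + (z : ℝ) ^ (-(1 / 3 : ℝ))) ^ n₂ ≤ 1 / 48)
    (r₃ : (1 / 2) ^ w₂ * (1 + (z : ℝ) ^ (-(1 / 3 : ℝ))) ^ n₃ ≤ 1 / 48) :
    ∃ T : ℕ → Finset ℕ, (∀ v, T v = D₁ ∨ T v = D₂ ∨ T v = S) ∧
      ∑ v ∈ Vs (primorial z) J, coll (T v) v / √v ≤ 1 / 8 := by
  have hD₁ : D₁.Nonempty := card_pos.1 (lt_of_lt_of_le (by positivity) c₁)
  have hD₂ : D₂.Nonempty := card_pos.1 (lt_of_lt_of_le (by positivity) c₂)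
  refine ⟨fun v => if v < 2 ^ (6 * w₁) then D₁ else if v < 2 ^ (6 * w₂) then D₂ else S, ?_, ?_⟩
  · intro v
    simp only
    split_ifs <;> simp
  have hVs : ∀ v ∈ Vs (primorial z) J, 1 < v ∧ v < J ∧ Nat.Coprime (primorial z) v := by
    intro v hv
    unfold Vs at hv
    rw [mem_filter, mem_Ioo] at hv
    exact ⟨hv.1.1, hv.1.2, hv.2⟩
  have hcard : ∀ (V : Finset ℕ) (T : Finset ℕ) (K : ℕ), (∀ v ∈ V, v < K) → 48 * K ≤ T.card →
      T.Nonempty → (V.card : ℝ) / T.card ≤ 1 / 48 := by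
    intro V T K hV hK hT
    have h1 : V.card ≤ K := by
      calc V.card ≤ (range K).card := card_le_card (fun v hv => mem_range.2 (hV v hv))
        _ = K := card_range K
    have h2 : (0 : ℝ) < T.card := by exact_mod_cast hT.card_pos
    have h3 : ((48 * V.card : ℕ) : ℝ) ≤ T.card := by exact_mod_cast (by omega : 48 * V.card ≤ T.card)
    push_cast at h3
    rw [div_le_div_iff₀ h2 (by norm_num)]
    linarith
  rw [← sum_filter_add_sum_filter_not _ (fun v => v < 2 ^ (6 * w₁)),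
    ← sum_filter_add_sum_filter_not ((Vs (primorial z) J).filter (fun v => ¬ v < 2 ^ (6 * w₁)))
      (fun v => v < 2 ^ (6 * w₂))]
  set V₁ := (Vs (primorial z) J).filter (fun v => v < 2 ^ (6 * w₁)) with hV₁
  set V₂ := ((Vs (primorial z) J).filter (fun v => ¬ v < 2 ^ (6 * w₁))).filter
    (fun v => v < 2 ^ (6 * w₂)) with hV₂
  set V₃ := ((Vs (primorial z) J).filter (fun v => ¬ v < 2 ^ (6 * w₁))).filter
    (fun v => ¬ v < 2 ^ (6 * w₂)) with hV₃
  have a1 := scale_low hz h₁ hD₁ V₁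
    (fun v hv => ⟨(hVs v (mem_filter.1 hv).1).1, (hVs v (mem_filter.1 hv).1).2.2⟩)
  have a2 := scale_high (w := w₁) hz h₂ hD₂ V₂
    (fun v hv => ⟨not_lt.1 (mem_filter.1 (mem_filter.1 hv).1).2,
      (hVs v (mem_filter.1 (mem_filter.1 hv).1).1).2.2⟩)
  have a3 := scale_high (w := w₂) hz h₃ hS V₃
    (fun v hv => ⟨not_lt.1 (mem_filter.1 hv).2,
      (hVs v (mem_filter.1 (mem_filter.1 hv).1).1).2.2⟩)
  have b1 := hcard V₁ D₁ _ (fun v hv => (mem_filter.1 hv).2) c₁ hD₁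
  have b2 := hcard V₂ D₂ _ (fun v hv => (mem_filter.1 hv).2) c₂ hD₂
  have b3 := hcard V₃ S J (fun v hv => (hVs v (mem_filter.1 (mem_filter.1 hv).1).1).2.1) c₃ hS
  have e1 : ∑ v ∈ V₁, coll (if v < 2 ^ (6 * w₁) then D₁ else if v < 2 ^ (6 * w₂) then D₂ else S) v
      / √v = ∑ v ∈ V₁, coll D₁ v / √v :=
    sum_congr rfl (fun v hv => by rw [if_pos (mem_filter.1 hv).2])
  have e2 : ∑ v ∈ V₂, coll (if v < 2 ^ (6 * w₁) then D₁ else if v < 2 ^ (6 * w₂) then D₂ else S) v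
      / √v = ∑ v ∈ V₂, coll D₂ v / √v :=
    sum_congr rfl (fun v hv => by
      rw [if_neg (mem_filter.1 (mem_filter.1 hv).1).2, if_pos (mem_filter.1 hv).2])
  have e3 : ∑ v ∈ V₃, coll (if v < 2 ^ (6 * w₁) then D₁ else if v < 2 ^ (6 * w₂) then D₂ else S) v
      / √v = ∑ v ∈ V₃, coll S v / √v :=
    sum_congr rfl (fun v hv => by
      rw [if_neg (mem_filter.1 (mem_filter.1 hv).1).2, if_neg (mem_filter.1 hv).2])
  rw [e1, e2, e3]
  linarith

end Crest.Agent.R019
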