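import Mathlib
import Crest.Agent.R019.Core
import Crest.Agent.R019.Kappa
import Crest.Agent.R019.Construct

/-!
Choice of the parameters.
-/

namespace Crest.Agent.R019

open Finset

theorem one_add_pow_le_exp {θ : ℝ} (hθ : 0 ≤ θ) (n : ℕ) : (1 + θ) ^ n ≤ Real.exp (θ * n) := by
  rw [mul_comm, Real.exp_nat_mul]
  apply pow_le_pow_left₀ (by linarith)
  have := Real.add_one_le_exp θ
  linarith

theorem rank_low {θ : ℝ} (hθ : 0 ≤ θ) {n : ℕ} (h : θ * n ≤ 1 / 96) : (1 + θ) ^ n - 1 ≤ 1 / 48 := by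
  have h1 := one_add_pow_le_exp hθ n
  have h0 : 0 ≤ θ * n := by positivity
  have h2 := Real.abs_exp_sub_one_le (x := θ * n) (by rw [abs_of_nonneg h0]; linarith)
  rw [abs_of_nonneg h0] at h2
  have h3 := le_abs_self (Real.exp (θ * n) - 1)
  linarith

theorem rank_high {θ : ℝ} (hθ : 0 ≤ θ) {n k w : ℕ} (h : θ * n ≤ k) (hw : 2 * k + 6 ≤ w) :
    (1 / 2) ^ w * (1 + θ) ^ n ≤ 1 / 48 := by
  have h1 := one_add_pow_le_exp hθ n
  have h2 : Real.exp (θ * n) ≤ 4 ^ k := by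
    calc Real.exp (θ * n) ≤ Real.exp (k * 1) := by
          apply Real.exp_le_exp.2; linarith
      _ = Real.exp 1 ^ k := Real.exp_nat_mul 1 k
      _ ≤ 4 ^ k := by
          apply pow_le_pow_left₀ (Real.exp_pos _).le
          have := Real.exp_one_lt_d9
          linarith
  have h3 : (1 / 2 : ℝ) ^ w ≤ (1 / 2) ^ (2 * k + 6) :=
    pow_le_pow_of_le_one (by norm_num) (by norm_num) hw
  calc (1 / 2 : ℝ) ^ w * (1 + θ) ^ n ≤ (1 / 2) ^ (2 * k + 6) * 4 ^ k := by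
        gcongr
        exact h1.trans h2
    _ = (1 / 64) * ((1 / 4) * 4) ^ k := by
        rw [pow_add, pow_mul, mul_pow]
        norm_num
        ring
    _ ≤ 1 / 48 := by norm_num

theorem rpow_m30 {m : ℕ} (hm : 0 < m) (k : ℕ) (σ : ℝ) (h : 30 * σ = k) :
    (((m ^ 30 : ℕ) : ℝ)) ^ (-σ) = 1 / (m : ℝ) ^ k := by
  have : (0 : ℝ) < m := by exact_mod_cast hm
  push_cast
  rw [← Real.rpow_natCast, ← Real.rpow_mul this.le, one_div, ← Real.rpow_natCast,
    ← Real.rpow_neg this.le]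
  congr 1
  push_cast
  linarith

theorem pow_succ_le_two_pow {m s : ℕ} (h : m < 2 ^ s) {k : ℕ} (hk : 0 < k) :
    m ^ k + 1 ≤ 2 ^ (k * s) := by
  rw [mul_comm, pow_mul]
  exact Nat.pow_lt_pow_left h hk.ne'

/-- The arithmetic data: primes, modulus and digits. -/
theorem data {m s b : ℕ} (hm : 10 ^ 7 ≤ m) (hs : m < 2 ^ s) (hsm : s ≤ m) (hb : 0 < b)
    (hb2 : b ≤ 2 ^ (504 * m ^ 30)) :
    ∃ (R Q : ℕ) (D' D₁ D₂ : Finset ℕ) (ω : ℕ), 0 < R ∧ R ≤ 2 ^ (m ^ 30) ∧ Nat.Coprime R b ∧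
      2 ≤ Q ∧ Nat.Coprime Q b ∧ Q ≤ 2 ^ (m ^ 30) ∧ Q ≤ D'.card * 2 ^ (62 * s + 1) ∧
      2 ^ ω ≤ Q ∧ m ^ 30 ≤ 64 * s * ω ∧ D'.Nonempty ∧
      (∀ e ∈ D', e ∣ R) ∧ (∀ e ∈ D', ∀ e' ∈ D', e ≡ e' [MOD Q] → e = e') ∧
      (∀ e ∈ D₁, e ∣ R ∧ e ≤ 2 ^ (384 * m ^ 14)) ∧ (∀ e ∈ D₂, e ∣ R ∧ e ≤ 2 ^ (384 * m ^ 22)) ∧
      48 * 2 ^ (6 * m ^ 13) ≤ D₁.card ∧ 48 * 2 ^ (6 * m ^ 21) ≤ D₂.card := by
  have hm0 : 0 < m := by omega
  have hs0 : 0 < s := by
    rcases Nat.eq_zero_or_pos s with rfl | h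
    · simp at hs; omega
    · exact h
  obtain ⟨M, hM⟩ : ∃ M, M = m ^ 30 := ⟨_, rfl⟩
  rw [← hM] at hb2 ⊢
  have hM0 : 0 < M := by rw [hM]; positivity
  obtain ⟨ω, hω⟩ : ∃ ω, ω = M / (32 * s) := ⟨_, rfl⟩
  have hω1 : 32 * s * ω ≤ M := by rw [hω]; exact Nat.mul_div_le _ _
  have hω2 : M < 32 * s * (ω + 1) := by rw [hω]; exact Nat.lt_mul_div_succ _ (by omega)
  have hpow : ∀ i j : ℕ, i ≤ j → m ^ i ≤ m ^ j := fun i j h => Nat.pow_le_pow_right hm0 h
  have hω3 : 6 * m ^ 21 + 6 ≤ ω := by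
    rw [hω, Nat.le_div_iff_mul_le (by omega), hM]
    have h1 : 1 ≤ m ^ 21 := Nat.one_le_pow _ _ hm0
    calc (6 * m ^ 21 + 6) * (32 * s) ≤ (12 * m ^ 21) * (32 * m) := by gcongr; omega
      _ = 384 * m ^ 22 := by ring
      _ ≤ m * m ^ 22 := by gcongr; omega
      _ = m ^ 23 := by ring
      _ ≤ m ^ 30 := hpow _ _ (by norm_num)
  have hZ : m ^ 32 + 1 ≤ 2 ^ (32 * s) := pow_succ_le_two_pow hs (by norm_num)
  -- the primes
  have hπ1 : ω ≤ ((Nat.primesLE (m ^ 32)).filter (fun q => ¬ q ∣ b)).card := by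
    have h1 := pi_lower hZ
    have h2 := card_primes_not_dvd (Z := m ^ 32) hb hb2
    have h3 : (32 * m) * (506 * M) ≤ (32 * m) * ((Nat.primesLE (m ^ 32)).card + 1) := by
      calc (32 * m) * (506 * M) = (32 * 506) * (m * M) := by ring
        _ ≤ m * (m * M) := by gcongr; omega
        _ = m ^ 32 := by rw [hM]; ring
        _ ≤ 32 * s * ((Nat.primesLE (m ^ 32)).card + 1) := h1
        _ ≤ _ := by gcongr
    have h4 := Nat.le_of_mul_le_mul_left h3 (by omega)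
    have h5 : ω ≤ M := by nlinarith
    omega
  obtain ⟨Pr, hPr, hPrc⟩ := exists_subset_card_eq hπ1
  have hPr' : ∀ q ∈ Pr, q.Prime ∧ q ≤ m ^ 32 ∧ ¬ q ∣ b := by
    intro q hq
    have := mem_filter.1 (hPr hq)
    exact ⟨Nat.prime_of_mem_primesLE this.1, Nat.le_of_mem_primesLE this.1, this.2⟩
  have hdiv : ∀ t ⊆ Pr, ∀ x ∈ divs t, x ≤ 2 ^ (32 * s * t.card) := by
    intro t ht x hx
    calc x ≤ (m ^ 32) ^ t.card :=
          le_of_mem_divs (by positivity) (fun q hq => (hPr' q (ht hq)).2.1) hx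
      _ ≤ (2 ^ (32 * s)) ^ t.card := Nat.pow_le_pow_left (by omega) _
      _ = _ := by rw [← pow_mul]
  have hdivM : ∀ x ∈ divs Pr, x ≤ 2 ^ M := fun x hx =>
    (hdiv Pr (Subset.refl _) x hx).trans (Nat.pow_le_pow_right (by norm_num) (by rw [hPrc]; omega))
  have hDc : (divs Pr).card = 2 ^ ω := by rw [card_divs (fun q hq => (hPr' q hq).1), hPrc]
  -- the modulus
  have hQm : 2 ^ ω * m ^ 62 + 1 ≤ 2 ^ M := by
    have h1 : m ^ 62 + 1 ≤ 2 ^ (62 * s) := pow_succ_le_two_pow hs (by norm_num)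
    have h2 : 124 * s ≤ M := by
      calc 124 * s ≤ m * m := by gcongr; omega
        _ = m ^ 2 := by ring
        _ ≤ M := by rw [hM]; exact hpow _ _ (by norm_num)
    have h3 : 2 * ω ≤ M := by nlinarith
    calc 2 ^ ω * m ^ 62 + 1 ≤ 2 ^ ω * (m ^ 62 + 1) := by
          have : 1 ≤ 2 ^ ω := Nat.one_le_two_pow
          rw [mul_add]; omega
      _ ≤ 2 ^ ω * 2 ^ (62 * s) := by gcongr
      _ = 2 ^ (ω + 62 * s) := by rw [pow_add]
      _ ≤ 2 ^ M := Nat.pow_le_pow_right (by norm_num) (by omega)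
  have hπ2 : 2 * (divs Pr).card * M <
      ((Nat.primesLE (2 ^ ω * m ^ 62)).filter (fun q => ¬ q ∣ b)).card := by
    have h1 := pi_lower hQm
    have h2 := card_primes_not_dvd (Z := 2 ^ ω * m ^ 62) hb hb2
    have h3 : M * (2 ^ ω * (m * m * M)) ≤ M * ((Nat.primesLE (2 ^ ω * m ^ 62)).card + 1) := by
      calc M * (2 ^ ω * (m * m * M)) = 2 ^ ω * m ^ 62 := by rw [hM]; ring
        _ ≤ _ := h1
    have h4 := Nat.le_of_mul_le_mul_left h3 hM0
    have h5 : 1 ≤ 2 ^ ω := Nat.one_le_two_pow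
    have h6 : 2 ^ ω * (508 * M) ≤ 2 ^ ω * (m * m * M) := by
      gcongr
      nlinarith
    have h7 : 1 * M ≤ 2 ^ ω * M := Nat.mul_le_mul_right _ h5
    rw [hDc]
    nlinarith
  obtain ⟨Q, hQ, D', hD', hD'c, hD'inj⟩ := exists_modulus hdivM
    (fun q hq => Nat.prime_of_mem_primesLE (mem_filter.1 hq).1) hπ2
  rw [mem_filter] at hQ
  have hQp := Nat.prime_of_mem_primesLE hQ.1
  have hQle := Nat.le_of_mem_primesLE hQ.1
  rw [hDc] at hD'c
  have hD'Q : D'.card ≤ Q := by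
    calc D'.card ≤ (range Q).card := by
          apply card_le_card_of_injOn (fun e => e % Q)
          · intro e _
            exact mem_coe.2 (mem_range.2 (Nat.mod_lt _ hQp.pos))
          · intro e he e' he' h
            exact hD'inj e he e' he' h
      _ = Q := card_range Q
  obtain ⟨P₂, hP₂, hP₂c⟩ := exists_subset_card_eq (s := Pr) (n := 6 * m ^ 21 + 6) (by omega)
  obtain ⟨P₁, hP₁, hP₁c⟩ := exists_subset_card_eq (s := Pr) (n := 6 * m ^ 13 + 6)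
    (by have := hpow 13 21 (by norm_num); omega)
  have hself : (∏ q ∈ Pr, q) ∈ divs Pr := mem_image.2 ⟨Pr, mem_powerset.2 (Subset.refl _), rfl⟩
  have hω0 : 3 ≤ ω := by omega
  refine ⟨∏ q ∈ Pr, q, Q, D', divs P₁, divs P₂, ω - 1, ?_, hdivM _ hself, ?_, hQp.two_le, ?_, ?_,
    ?_, ?_, ?_, ?_, ?_, hD'inj, ?_, ?_, ?_, ?_⟩
  · exact prod_pos (fun q hq => (hPr' q hq).1.pos)
  · exact Nat.Coprime.prod_left
      (fun q hq => (hPr' q hq).1.coprime_iff_not_dvd.2 (hPr' q hq).2.2)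
  · exact hQp.coprime_iff_not_dvd.2 hQ.2
  · omega
  · have h1 : m ^ 62 + 1 ≤ 2 ^ (62 * s) := pow_succ_le_two_pow hs (by norm_num)
    calc Q ≤ 2 ^ ω * m ^ 62 := hQle
      _ ≤ (2 * D'.card) * 2 ^ (62 * s) := Nat.mul_le_mul hD'c (by omega)
      _ = _ := by rw [pow_succ]; ring
  · have : 2 ^ ω = 2 * 2 ^ (ω - 1) := by
      rw [← pow_succ']
      congr 1
      omega
    omega
  · have : ω + 1 ≤ 2 * (ω - 1) := by omega
    calc M ≤ 32 * s * (ω + 1) := hω2.le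
      _ ≤ 32 * s * (2 * (ω - 1)) := by gcongr
      _ = _ := by ring
  · apply card_pos.1
    have : 1 ≤ 2 ^ ω := Nat.one_le_two_pow
    omega
  · exact fun e he => dvd_of_mem_divs (Subset.refl _) (hD' he)
  · intro e he
    refine ⟨dvd_of_mem_divs hP₁ he, (hdiv P₁ hP₁ e he).trans ?_⟩
    apply Nat.pow_le_pow_right (by norm_num)
    rw [hP₁c]
    have h1 : 1 ≤ m ^ 13 := Nat.one_le_pow _ _ hm0
    calc 32 * s * (6 * m ^ 13 + 6) ≤ 32 * m * (12 * m ^ 13) := by gcongr; omega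
      _ = _ := by ring
  · intro e he
    refine ⟨dvd_of_mem_divs hP₂ he, (hdiv P₂ hP₂ e he).trans ?_⟩
    apply Nat.pow_le_pow_right (by norm_num)
    rw [hP₂c]
    have h1 : 1 ≤ m ^ 21 := Nat.one_le_pow _ _ hm0
    calc 32 * s * (6 * m ^ 21 + 6) ≤ 32 * m * (12 * m ^ 21) := by gcongr; omega
      _ = _ := by ring
  · rw [card_divs (fun q hq => (hPr' q (hP₁ hq)).1), hP₁c, pow_add]
    omega
  · rw [card_divs (fun q hq => (hPr' q (hP₂ hq)).1), hP₂c, pow_add]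
    omega

theorem main_param {m s a b : ℕ} (hm : 2 ^ 135 ≤ m) (hs : m < 2 ^ s) (hsm : s ≤ m)
    (ha : 0 < a) (hab : Nat.Coprime a b) (haU : a ≤ 2 ^ (2 * m ^ 30))
    (hb1 : 2 ^ (252 * m ^ 30) ≤ b) (hb2 : b ≤ 2 ^ (504 * m ^ 30)) :
    SumUF (3225609 * s) ((a : ℚ) / b) := by
  have hm7 : 10 ^ 7 ≤ m := le_trans (by norm_num) hm
  have hm0 : 0 < m := by omega
  have hs0 : 0 < s := by
    rcases Nat.eq_zero_or_pos s with rfl | h
    · simp at hs; omega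
    · exact h
  have hb : 0 < b := lt_of_lt_of_le (by positivity) hb1
  obtain ⟨R, Q, D', D₁, D₂, ω, hR0, hRM, hRb, hQ2, hQb, hQM, hQD, hωQ, hMω, hD'ne, hD'R, hD'inj,
    hD₁, hD₂, hD₁c, hD₂c⟩ := data hm7 hs hsm hb hb2
  have hpow : ∀ i j : ℕ, i ≤ j → m ^ i ≤ m ^ j := fun i j h => Nat.pow_le_pow_right hm0 h
  have hz135 : 2 ^ 4032 ≤ m ^ 30 := by
    calc 2 ^ 4032 ≤ 2 ^ (135 * 30) := Nat.pow_le_pow_right (by norm_num) (by norm_num)
      _ = (2 ^ 135) ^ 30 := by rw [pow_mul]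
      _ ≤ m ^ 30 := Nat.pow_le_pow_left hm 30
  have r1 := rpow_m30 hm0 15 (1 / 2) (by norm_num)
  have r2 := rpow_m30 hm0 10 (1 / 3) (by norm_num)
  have hmr : (10 ^ 7 : ℝ) ≤ m := by exact_mod_cast hm7
  have hmr0 : (0 : ℝ) < m := by exact_mod_cast hm0
  have k1 : (1 + ((m ^ 30 : ℕ) : ℝ) ^ (-(1 / 2 : ℝ))) ^ (384 * m ^ 14) - 1 ≤ 1 / 48 := by
    rw [r1]
    apply rank_low (by positivity)
    push_cast
    have : 1 / (m : ℝ) ^ 15 * (384 * (m : ℝ) ^ 14) = 384 / m := by field_simp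
    rw [this, div_le_div_iff₀ hmr0 (by norm_num)]
    linarith
  have k2 : (1 / 2 : ℝ) ^ (m ^ 13) *
      (1 + ((m ^ 30 : ℕ) : ℝ) ^ (-(1 / 3 : ℝ))) ^ (384 * m ^ 22) ≤ 1 / 48 := by
    rw [r2]
    apply rank_high (k := 384 * m ^ 12) (by positivity)
    · push_cast
      apply le_of_eq
      field_simp
    · have h1 : 1 ≤ m ^ 12 := Nat.one_le_pow _ _ hm0
      calc 2 * (384 * m ^ 12) + 6 ≤ 774 * m ^ 12 := by omega
        _ ≤ m * m ^ 12 := by gcongr; omega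
        _ = m ^ 13 := by ring
  have k3 : (1 / 2 : ℝ) ^ (m ^ 21) *
      (1 + ((m ^ 30 : ℕ) : ℝ) ^ (-(1 / 3 : ℝ))) ^ (504 * m ^ 30) ≤ 1 / 48 := by
    rw [r2]
    apply rank_high (k := 504 * m ^ 20) (by positivity)
    · push_cast
      apply le_of_eq
      field_simp
    · have h1 : 1 ≤ m ^ 20 := Nat.one_le_pow _ _ hm0
      calc 2 * (504 * m ^ 20) + 6 ≤ 1014 * m ^ 20 := by omega
        _ ≤ m * m ^ 20 := by gcongr; omega
        _ = m ^ 21 := by ring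
  have hsM : 63 * 32256 * (s * s) ≤ m ^ 30 := by
    calc 63 * 32256 * (s * s) ≤ m * (m * m) := by gcongr; omega
      _ = m ^ 3 := by ring
      _ ≤ m ^ 30 := hpow _ _ (by norm_num)
  have hmM : m ≤ m ^ 30 := by simpa using hpow 1 30 (by norm_num)
  obtain ⟨M, hM⟩ : ∃ M, M = m ^ 30 := ⟨_, rfl⟩
  rw [← hM] at haU hb1 hb2 hRM hQM hMω hz135 k1 k2 k3 hsM hmM
  have hM0 : 0 < M := by omega
  obtain ⟨H, hH⟩ : ∃ H, H = 2 ^ M := ⟨_, rfl⟩
  obtain ⟨U, hU⟩ : ∃ U, U = 2 ^ (2 * M) := ⟨_, rfl⟩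
  have hUH : U = H * H := by rw [hU, hH, ← pow_add]; congr 1; ring
  have hMH : M < H := by rw [hH]; exact Nat.lt_two_pow_self
  have hH1 : 1 ≤ H := by omega
  have hHU : H ≤ U := by rw [hUH]; exact Nat.le_mul_self H
  have hUbig : 10 ^ 7 ≤ U := by omega
  have hU0 : 0 < U := by omega
  have hb1' : U ^ 126 ≤ b := by
    rw [hU, ← pow_mul]
    have : 2 * M * 126 = 252 * M := by ring
    rw [this]; exact hb1
  have hW : primorial M ≤ U := by
    rw [hU, pow_mul]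
    exact primorial_le_four_pow M
  rw [← hU] at haU
  rw [← hH] at hRM hQM
  have hUpow : ∀ i j : ℕ, i ≤ j → U ^ i ≤ U ^ j := fun i j h => Nat.pow_le_pow_right hU0 h
  -- number of digits
  obtain ⟨l, hl⟩ : ∃ l, l = Nat.log Q (b / (U ^ 52 * R)) := ⟨_, rfl⟩
  have hUR : 0 < U ^ 52 * R := by positivity
  have hQle : Q ≤ b / (U ^ 52 * R) := by
    rw [Nat.le_div_iff_mul_le hUR]
    calc Q * (U ^ 52 * R) ≤ U * (U ^ 52 * U) := by gcongr <;> omega
      _ = U ^ 54 := by ring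
      _ ≤ U ^ 126 := hUpow _ _ (by norm_num)
      _ ≤ b := hb1'
  have hl0 : 0 < l := by rw [hl]; exact Nat.log_pos (by omega) hQle
  have hl1 : U ^ 52 * (Q ^ l * R) ≤ b := by
    have h1 : Q ^ l ≤ b / (U ^ 52 * R) := by
      rw [hl]; exact Nat.pow_log_le_self _ (by omega)
    rw [Nat.le_div_iff_mul_le hUR] at h1
    calc _ = Q ^ l * (U ^ 52 * R) := by ring
      _ ≤ b := h1
  have hl2 : b < U ^ 53 * (Q ^ l * R) := by
    have h1 : b / (U ^ 52 * R) < Q ^ (l + 1) := by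
      rw [hl]; exact Nat.lt_pow_succ_log_self (by omega) _
    rw [Nat.div_lt_iff_lt_mul hUR] at h1
    calc b < Q ^ (l + 1) * (U ^ 52 * R) := h1
      _ = Q * (U ^ 52 * (Q ^ l * R)) := by ring
      _ ≤ U * (U ^ 52 * (Q ^ l * R)) := by gcongr; omega
      _ = _ := by ring
  obtain ⟨P, hP⟩ : ∃ P, P = Q ^ l * R := ⟨_, rfl⟩
  have hP0 : 0 < P := by rw [hP]; positivity
  have hPb : P ≤ b := by
    rw [← hP] at hl1
    calc P = 1 * P := by ring
      _ ≤ U ^ 52 * P := Nat.mul_le_mul_right _ (Nat.one_le_pow _ _ hU0)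
      _ ≤ b := hl1
  have hls : l ≤ 32256 * s := by
    have h1 : 2 ^ (ω * l) ≤ 2 ^ (504 * M) := by
      calc 2 ^ (ω * l) = (2 ^ ω) ^ l := by rw [pow_mul]
        _ ≤ Q ^ l := Nat.pow_le_pow_left hωQ l
        _ ≤ Q ^ l * R := Nat.le_mul_of_pos_right _ hR0
        _ ≤ b := by rw [← hP]; exact hPb
        _ ≤ _ := hb2
    have h2 := (Nat.pow_le_pow_iff_right (by norm_num)).1 h1
    have hω0 : 0 < ω := by
      rcases Nat.eq_zero_or_pos ω with rfl | h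
      · omega
      · exact h
    have h3 : ω * l ≤ ω * (32256 * s) := by
      calc ω * l ≤ 504 * M := h2
        _ ≤ 504 * (64 * s * ω) := by gcongr
        _ = _ := by ring
    exact Nat.le_of_mul_le_mul_left h3 hω0
  have hSspec := digs_spec hQ2 hR0 hD'R l
  have hScard := card_digs (by omega : 0 < Q) hD'inj l
  obtain ⟨S, hSdef⟩ : ∃ S, S = digs Q D' l := ⟨_, rfl⟩
  rw [← hSdef] at hSspec hScard
  rw [← hP] at hSspec hl1 hl2
  have hSne : S.Nonempty := by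
    apply card_pos.1
    rw [hScard]
    exact pow_pos hD'ne.card_pos _
  have hPS : P ≤ S.card * U := by
    have h1 : (62 * s + 1) * l ≤ M := by
      calc (62 * s + 1) * l ≤ (63 * s) * (32256 * s) := by gcongr; omega
        _ = 63 * 32256 * (s * s) := by ring
        _ ≤ M := hsM
    calc P = Q ^ l * R := hP
      _ ≤ (D'.card * 2 ^ (62 * s + 1)) ^ l * H := by gcongr
      _ = S.card * (2 ^ ((62 * s + 1) * l) * H) := by rw [mul_pow, hScard, ← pow_mul]; ring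
      _ ≤ S.card * (H * H) := by
          gcongr
          rw [hH]
          exact Nat.pow_le_pow_right (by norm_num) h1
      _ = _ := by rw [hUH]
  have hP73 : U ^ 73 ≤ P := by
    have h1 : U ^ 53 * U ^ 73 ≤ U ^ 53 * P := by
      calc U ^ 53 * U ^ 73 = U ^ 126 := by ring
        _ ≤ b := hb1'
        _ ≤ _ := hl2.le
    exact Nat.le_of_mul_le_mul_left h1 (by positivity)
  have hS72 : U ^ 72 ≤ S.card := by
    have h1 : U ^ 72 * U ≤ S.card * U := by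
      calc U ^ 72 * U = U ^ 73 := by ring
        _ ≤ _ := hP73.trans hPS
    exact Nat.le_of_mul_le_mul_right h1 hU0
  have hRP : R ∣ P := by rw [hP]; exact Dvd.intro_left _ rfl
  obtain ⟨T, hT, hκ⟩ := kappa (D₁ := D₁) (D₂ := D₂) (S := S) (J := U ^ 9) hM0
    (fun x hx => (hD₁ x hx).2) (fun x hx => (hD₂ x hx).2)
    (fun x hx => by have := (hSspec x hx).2.1; omega) hD₁c hD₂c
    (by
      calc 48 * U ^ 9 ≤ U * U ^ 9 := by gcongr; omega
        _ = U ^ 10 := by ring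
        _ ≤ U ^ 72 := hUpow _ _ (by norm_num)
        _ ≤ _ := hS72)
    hSne k1 k2 k3
  have hY : primorial M * U ^ 9 ≤ U ^ 10 := by
    calc primorial M * U ^ 9 ≤ U * U ^ 9 := by gcongr
      _ = _ := by ring
  have hcore := core (l := l) (E := U) (J := U ^ 9) (z := M) (A := 23) T ha hb hab hP0
    (by rw [hP]; exact Nat.Coprime.mul_left (Nat.Coprime.pow_left _ hQb) hRb)
    (fun x hx => ⟨(hSspec x hx).2.2 hl0, (hSspec x hx).1, by have := (hSspec x hx).2.1; omega⟩)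
    hSne (fun x hx => (hD₁ x hx).1.trans hRP)
    (card_pos.1 (lt_of_lt_of_le (by positivity) hD₁c))
    (fun x hx => (hD₂ x hx).1.trans hRP)
    (card_pos.1 (lt_of_lt_of_le (by positivity) hD₂c)) hT hU0 hM0
    (by
      calc M ≤ U := by omega
        _ = U ^ 1 := by ring
        _ ≤ U ^ 9 := hUpow _ _ (by norm_num))
    (by
      have h1 : (0 : ℝ) < S.card := by exact_mod_cast hSne.card_pos
      have h2 : (P : ℝ) ≤ S.card * U := by exact_mod_cast hPS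
      have h3 : (10 ^ 7 : ℝ) ≤ U := by exact_mod_cast hUbig
      have h4 : 52 * (U : ℝ) ^ 3 * P / S.card ≤ 52 * U ^ 4 := by
        rw [div_le_iff₀ h1]
        calc 52 * (U : ℝ) ^ 3 * P ≤ 52 * (U : ℝ) ^ 3 * (S.card * U) := by gcongr
          _ = _ := by ring
      push_cast
      calc (4 : ℝ) * (52 * (U : ℝ) ^ 3 * P / S.card) ^ 2 ≤ 4 * (52 * (U : ℝ) ^ 4) ^ 2 := by gcongr
        _ = 10816 * (U : ℝ) ^ 8 := by ring
        _ < (U : ℝ) * (U : ℝ) ^ 8 := by gcongr; linarith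
        _ = _ := by ring)
    (by
      have h1 := pow_card_le (z := M) hb (filter_subset (fun q => M < q) b.primeFactors)
        (fun q hq => (mem_filter.1 hq).2.le)
      generalize (b.primeFactors.filter (fun q => M < q)).card = k at h1 ⊢
      have h2 : 2 ^ (4032 * k) ≤ 2 ^ (504 * M) := by
        calc 2 ^ (4032 * k) = (2 ^ 4032) ^ k := by rw [pow_mul]
          _ ≤ M ^ k := Nat.pow_le_pow_left hz135 k
          _ ≤ _ := h1.trans hb2
      have h3 := (Nat.pow_le_pow_iff_right (by norm_num)).1 h2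
      omega)
    (by
      calc 9 * U ^ 9 * (primorial M * U ^ 9) ^ 4 * a ^ 2 * P
          ≤ U * U ^ 9 * (U ^ 10) ^ 4 * U ^ 2 * P := by gcongr; omega
        _ = U ^ 52 * P := by ring
        _ ≤ b := hl1)
    (by
      have h1 : U ^ 106 * (U ^ 20 * b) ≤ U ^ 106 * P ^ 2 := by
        calc U ^ 106 * (U ^ 20 * b) = U ^ 126 * b := by ring
          _ ≤ (U ^ 53 * P) * (U ^ 53 * P) := Nat.mul_le_mul (hb1'.trans hl2.le) hl2.le
          _ = _ := by ring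
      have h2 := Nat.le_of_mul_le_mul_left h1 (by positivity)
      calc 12 * U ^ 9 * (primorial M * U ^ 9) * b ≤ U * U ^ 9 * U ^ 10 * b := by gcongr; omega
        _ = U ^ 20 * b := by ring
        _ ≤ _ := h2)
    (by
      calc 36 * U ^ 9 * (primorial M * U ^ 9) ^ 2 ≤ U * U ^ 9 * (U ^ 10) ^ 2 := by gcongr; omega
        _ = U ^ 30 := by ring
        _ ≤ U ^ 73 := hUpow _ _ (by norm_num)
        _ ≤ P := hP73)
    (by
      calc 6 * a * P * (primorial M * U ^ 9) ^ 2 ≤ U * U * (S.card * U) * (U ^ 10) ^ 2 := by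
            gcongr; omega
        _ = _ := by ring)
    hκ
  exact hcore.mono (by omega)

end Crest.Agent.R019
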